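import Vale.Agent.P281.H167.GM.Est

/-! P281, theorem GM: the analytic core. -/

open scoped Manifold ContDiff ComplexOrder Topology
open Complex Set Filter MeasureTheory

set_option linter.all false

noncomputable section

namespace Vale.Agent.P281.H167.GM

open Vale.Agent.P272.K Vale.Agent.P272.K.AMP Vale.Agent.P299.D Vale.Agent.P299 Vale.Agent.P299.H882
open Vale.Agent.P281.H167.SA
open Vale.Agent.P299.H937 (normTen nTen)
open Vale.Agent.P299.H212 (nzSet)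
open INT (IsDensity intX IsClosedForm)

variable {n : ℕ} {X : Type} [TopologicalSpace X] [ChartedSpace (Cm n) X]
  [IsManifold 𝓘(ℂ, Cm n) ω X]
  {w χ θ β G : D.FormM n X} {φ : Chart n X → Cm n → ℝ} {m : ℕ} {ρ : X → ℝ}

lemma CurvGe.mono {C C' : ℝ} (h0 : ∀ x, 0 ≤ ρ x) (hC : CurvGe φ m ρ C χ) (hCC : C ≤ C')
    (hχ : ∀ e x, At e x → (χ e (e x)).PosSemidef) : CurvGe φ m ρ C' χ := by
  intro δ hδ e x hx
  have h1 := hC δ hδ e x hx
  have h2 : 0 ≤ (C' - C) * (δ / (ρ x + δ)) := by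
    have := h0 x
    exact mul_nonneg (by linarith) (by positivity)
  have h3 := h1.add (psd_real_smul (hχ e x hx) h2)
  have e1 : cHess (phiD φ m ρ δ e) (e x) + ((C' * (δ / (ρ x + δ)) : ℝ) : ℂ) • χ e (e x) =
      cHess (phiD φ m ρ δ e) (e x) + ((C * (δ / (ρ x + δ)) : ℝ) : ℂ) • χ e (e x) +
        (((C' - C) * (δ / (ρ x + δ)) : ℝ) : ℂ) • χ e (e x) := by
    rw [add_assoc, ← add_smul]
    congr 2
    push_cast
    ring
  rw [e1]
  exact h3

lemma CurvGe.toG {C : ℝ} (h0 : ∀ x, 0 ≤ ρ x) (hC0 : 0 ≤ C) (hC : CurvGe φ m ρ C χ)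
    (hθ0 : ∀ e x, At e x → (θ e (e x)).PosSemidef) (hβ0 : ∀ e x, At e x → (β e (e x)).PosSemidef)
    {s ε : ℝ} (hs : 0 ≤ s) (hε : 0 < ε) : CurvGe φ m ρ (C / ε) (addF (addF β s θ) ε χ) := by
  intro δ hδ e x hx
  have h1 := hC δ hδ e x hx
  have h2 : 0 ≤ C / ε * (δ / (ρ x + δ)) := by
    have := h0 x
    positivity
  have h3 : (addF β s θ e (e x)).PosSemidef := (hβ0 e x hx).add (psd_real_smul (hθ0 e x hx) hs)
  have h4 := h1.add (psd_real_smul h3 h2)
  have e1 : cHess (phiD φ m ρ δ e) (e x) +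
      ((C / ε * (δ / (ρ x + δ)) : ℝ) : ℂ) • addF (addF β s θ) ε χ e (e x) =
      cHess (phiD φ m ρ δ e) (e x) + ((C * (δ / (ρ x + δ)) : ℝ) : ℂ) • χ e (e x) +
        ((C / ε * (δ / (ρ x + δ)) : ℝ) : ℂ) • addF β s θ e (e x) := by
    rw [show addF (addF β s θ) ε χ e (e x) = addF β s θ e (e x) + (ε : ℂ) • χ e (e x) from rfl,
      smul_add, smul_smul]
    have : ((C / ε * (δ / (ρ x + δ)) : ℝ) : ℂ) * (ε : ℂ) = ((C * (δ / (ρ x + δ)) : ℝ) : ℂ) := by
      rw [← Complex.ofReal_mul]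
      congr 1
      field_simp
    rw [this]
    abel
  rw [e1]
  exact h4

/-- **the analytic core** for a function `u` -/
theorem core_u [T2Space X] [CompactSpace X] [ConnectedSpace X] (coh : CohPart) (eps : EpsPart)
    (mass : MassPart)
    (hχ : IsKahler χ) (hφ : IsCanonicalMetric φ) (hm : 0 < m) (hρ : SmoothFn (n := n) ρ)
    (h0 : ∀ x, 0 ≤ ρ x) {C : ℝ} (hC : CurvGe φ m ρ C χ)
    (hθ : IsClosedForm θ) (hβ : IsClosedForm β)
    (hθ0 : ∀ e x, At e x → (θ e (e x)).PosSemidef) (hβ0 : ∀ e x, At e x → (β e (e x)).PosSemidef)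
    {C₁ : ℝ} {ν : ℕ} (hgr : ∃ᶠ s : ℝ in atTop, mixX (addF β s θ) (cF φ) ≤ C₁ * s ^ ν / s)
    {q : ℝ} (hq : 0 ≤ q) {V : Set X} (hV : IsOpen V) {u : X → ℝ}
    (hS : ∀ (g Θ : D.FormM n X), IsKahler g → IsForm Θ →
      (∀ e x, At e x → (Θ e (e x)).PosSemidef) →
      (∀ e x, At e x → (Θ e (e x) + D.ric g e (e x)).PosSemidef) →
      ∃ S S0 : X → ℝ, SmoothFn (n := n) S ∧ SmoothFn (n := n) S0 ∧ (∀ x, 0 ≤ S x) ∧
        (∀ x, 0 ≤ S0 x) ∧ (∀ x ∈ V, 0 < S x ∧ 0 < S0 x ∧ u x = Real.log (S x) - Real.log (S0 x)) ∧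
        BochIneqT Θ g q S ∧ BochIneqT Θ g q S0)
    {e : Chart n X} {x : X} (hx : At e x) (hxV : x ∈ V) (hρx : 0 < ρ x) (hP : (β e (e x)).PosDef)
    (hrk : (θ e (e x)).rank = ν) (v : Fin n → ℂ) (hv : ∀ j, ∑ i, v i * θ e (e x) i j = 0) :
    ∑ i, xi u e (e x) i * v i = 0 := by
  by_contra hne
  haveI : Nonempty X := ⟨x⟩
  have hχ0 : ∀ e x, At e x → (χ e (e x)).PosSemidef := fun e x hx => (hχ.posDef e x hx).posSemidef
  have hC' : CurvGe φ m ρ (max C 0) χ := hC.mono h0 (le_max_left _ _) hχ0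
  have hCp : 0 ≤ max C 0 := le_max_right _ _
  set Cp := max C 0 with hCpdef
  obtain ⟨U0, c0, hU0, hw, hlw⟩ := exists_yauC H882.yau hχ hφ
  set w := addH χ U0 with hwdef
  have hwH := hw.toIsHermitian
  -- the Bochner functions
  have hSg : ∀ (g : D.FormM n X) (δ c : ℝ), IsKahler g → 0 < δ →
      (∀ e x, At e x → Real.log (g e (e x)).det.re = phiD φ m ρ δ e (e x) + c) →
      ∃ S S0 : X → ℝ, SmoothFn (n := n) S ∧ SmoothFn (n := n) S0 ∧ (∀ x, 0 ≤ S x) ∧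
        (∀ x, 0 ≤ S0 x) ∧ (∀ x ∈ V, 0 < S x ∧ 0 < S0 x ∧ u x = Real.log (S x) - Real.log (S0 x)) ∧
        BochIneqT (thP φ m ρ Cp δ χ) g q S ∧ BochIneqT (thP φ m ρ Cp δ χ) g q S0 := by
    intro g δ c hg hδ hlg
    have hcan := isCanonical_phiD (m := m) hφ hρ h0 hδ
    refine hS g (thP φ m ρ Cp δ χ) hg (isForm_thP hφ hρ h0 Cp hδ hχ.toIsHermitian.isForm)
      (fun e x hx => thP_psd hC' hδ hx) fun e x hx => ?_
    rw [ric_of_logdet ⟨c, hlg⟩ hcan hx]
    unfold thP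
    rw [hx.left_inv]
    have h2 : 0 ≤ Cp * (δ / (ρ x + δ)) := by
      have := h0 x
      positivity
    have h3 := psd_real_smul (hχ0 e x hx) h2
    have e1 : cHess (phiD φ m ρ δ e) (e x) + ((Cp * (δ / (ρ x + δ)) : ℝ) : ℂ) • χ e (e x) +
        -cHess (phiD φ m ρ δ e) (e x) = ((Cp * (δ / (ρ x + δ)) : ℝ) : ℂ) • χ e (e x) := by abel
    rw [e1]
    exact h3
  -- smoothness of `u` on `V`
  obtain ⟨S1, S2, hS1, hS2, hS12⟩ : ∃ S S0 : X → ℝ, SmoothFn (n := n) S ∧ SmoothFn (n := n) S0 ∧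
      (∀ x ∈ V, 0 < S x ∧ 0 < S0 x ∧ u x = Real.log (S x) - Real.log (S0 x)) := by
    have hcan := isCanonical_phiD (m := m) hφ hρ h0 one_pos
    obtain ⟨U1, c1, hU1, hg1, hl1⟩ := exists_yauC H882.yau hχ hcan
    obtain ⟨S, S0, h1, h2, -, -, h3, -, -⟩ := hSg _ 1 c1 hg1 one_pos hl1
    exact ⟨S, S0, h1, h2, h3⟩
  have husm : ∀ (e' : Chart n X) y, At e' y → y ∈ V →
      ContDiffAt ℝ ∞ (fun z => u (e'.symm z)) (e' y) := by
    intro e' y hy hyV
    have h1 : ContDiffAt ℝ ∞ (fun z => Real.log (S1 (e'.symm z)) - Real.log (S2 (e'.symm z)))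
        (e' y) := by
      refine ((hS1 e' y hy).log ?_).sub ((hS2 e' y hy).log ?_)
      · rw [hy.left_inv]; exact (hS12 y hyV).1.ne'
      · rw [hy.left_inv]; exact (hS12 y hyV).2.1.ne'
    refine h1.congr_of_eventuallyEq ?_
    have h2 : ∀ᶠ z in 𝓝 (e' y), e'.symm z ∈ V := by
      have : ContinuousAt e'.symm (e' y) := e'.continuousAt_symm (e'.map_source hy.2)
      refine this.eventually_mem ?_
      rw [hy.left_inv]; exact hV.mem_nhds hyV
    filter_upwards [h2] with z hz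
    exact (hS12 _ hz).2.2
  have hucont : ContinuousOn u V := by
    intro y hy
    have hy' := at_chartAt (n := n) y
    have h1 := (husm _ y hy' hy).continuousAt
    have h2 : ContinuousAt (fun y' => u ((chartAt (Cm n) y).symm (chartAt (Cm n) y y'))) y :=
      h1.comp (f := chartAt (Cm n) y) ((chartAt (Cm n) y).continuousAt hy'.2)
    refine (h2.congr ?_).continuousWithinAt
    filter_upwards [(chartAt (Cm n) y).open_source.mem_nhds hy'.2] with y' hy''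
    rw [(chartAt (Cm n) y).left_inv hy'']
  have hxic : ∀ i, ContinuousAt (fun z => xi u e z i) (e x) := fun i =>
    (contDiffAt_dz (m := 0) (r := 1) ((ofReal_contDiffAt (husm e x hx hxV)).of_le
      (by norm_cast)) (by simp)).continuousAt
  obtain ⟨d0, hd0, hlow⟩ := lower_boundL hθ hβ hθ0 hβ0 hχ hw hx hP hxic v hv hne
  rw [hrk] at hlow
  have cρ := sm_continuous hρ
  have hρn : ∀ᶠ y in 𝓝 x, ρ x / 2 < ρ y :=
    cρ.continuousAt.eventually (lt_mem_nhds (half_lt_self hρx))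
  -- the neighbourhood `N` of `x`
  obtain ⟨N, hN, hNo, hxN⟩ := mem_nhds_iff.1 ((hlow.and (hV.mem_nhds hxV)).and hρn)
  obtain ⟨η, hηs, hη1, hη01⟩ := exists_tsupport_one_of_isOpen_isClosed hNo
    isClosed_closure.isCompact isClosed_singleton (Set.singleton_subset_iff.2 hxN)
  have hηx : η x = 1 := hη1 rfl
  have hKc : IsCompact (tsupport η) := (isClosed_tsupport η).isCompact
  have hKV : ∀ y ∈ tsupport η, y ∈ V := fun y hy => (hN (hηs hy)).1.2
  have hxK : x ∈ tsupport η := subset_tsupport _ (by simp [hηx])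
  obtain ⟨Cu, hCu⟩ := hKc.exists_bound_of_continuousOn (hucont.mono hKV)
  have hηc : Continuous fun y => η y := η.continuous
  have hIη : 0 < J w (fun y => η y) :=
    J_pos_of hwH hηc (fun y => (hη01 y).1) (x := x) (by rw [hηx]; exact one_pos)
  set H := J w (fun y => η y) with hH
  set r0 := ρ x / 2 with hr0
  have hr0p : 0 < r0 := half_pos hρx
  set K1 : ℝ := (Real.exp ((m : ℝ)⁻¹ * Real.log r0))⁻¹ *
        (n * J w (fun x => Real.exp ((m : ℝ)⁻¹ * Real.log (ρ x + 1)))) * (Real.pi * (q + q)) with hK1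
  have hK10 : 0 ≤ K1 := by
    have h1 : 0 ≤ J w (fun x => Real.exp ((m : ℝ)⁻¹ * Real.log (ρ x + 1))) :=
      J_nonneg hwH fun x => (Real.exp_pos _).le
    have := Real.pi_pos
    positivity
  -- the estimate for `ε > 0`
  have step1 : ∀ s ε : ℝ, 0 < s → 0 < ε →
      d0 * s ^ ν / (1 + Cu ^ 2) * H ^ 2 ≤ K1 * mixX (addF (addF β s θ) ε χ) (cF φ) := by
    intro s ε hs hε
    refine le_of_forall_pos_le_add fun κ hκ => ?_
    set κ' : ℝ := κ / (K1 + 1) with hκ'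
    have hκ'p : 0 < κ' := by positivity
    have hG : IsKahler (addF (addF β s θ) ε χ) := isKahler_G hχ hθ hβ hθ0 hβ0 hs.le hε
    have hκ2 : 0 < κ' * ε / (Cp + 1) := by positivity
    obtain ⟨δ₀, hδ₀, hδm⟩ := mass n X (addF (addF β s θ) ε χ) hG φ hφ m hm ρ hρ h0 ⟨x, hρx⟩
      (Cp / ε) (hC'.toG h0 hCp hθ0 hβ0 hs.le hε) (κ' * ε / (Cp + 1)) hκ2
    set δ := min δ₀ 1 with hδdef
    have hδ : 0 < δ := lt_min hδ₀ one_pos
    have hcan := isCanonical_phiD (m := m) hφ hρ h0 hδ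
    obtain ⟨U, c, hU, hg, hlg⟩ := exists_yauC H882.yau hG hcan
    have hE := hδm δ hδ (min_le_left _ _) U c hU hg hlg
    obtain ⟨S, S0, hSs, hS0s, hSn, hS0n, hSV, hB, hB0⟩ := hSg _ δ c hg hδ hlg
    have hmain := main_est coh hχ hφ hρ h0 hCp hC' hθ hβ hθ0 hβ0 hw hlw hq hV hs.le hε hδ
      (min_le_right _ _) hU hg hlg hSs hS0s hSn hS0n hSV hB hB0 (e := e) hηc hη01 hxK
      (κ := d0 * s ^ ν) (r0 := r0) (Cu := Cu) (by positivity) hr0p (fun y hy => by
        obtain ⟨⟨⟨h1, h2⟩, h3⟩, h4⟩ := hN (hηs hy)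
        refine ⟨h1, h3, h4.le, ?_, h2 s ε hs.le hε.le⟩
        have := hCu y hy
        rwa [Real.norm_eq_abs] at this)
    have e1 : Cp / ε * J (addH (addF (addF β s θ) ε χ) U) (fun x => δ / (ρ x + δ) *
            trX (addH (addF (addF β s θ) ε χ) U) (addF (addF β s θ) ε χ) x) ≤ κ' := by
      have h1 := mul_le_mul_of_nonneg_left hE (by positivity : 0 ≤ Cp / ε)
      refine h1.trans ?_
      have h2 : Cp / ε * (κ' * ε / (Cp + 1)) = κ' * (Cp / (Cp + 1)) := by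
        field_simp
      rw [h2]
      have h3 : Cp / (Cp + 1) ≤ 1 := by
        rw [div_le_one (by positivity)]; linarith
      calc κ' * (Cp / (Cp + 1)) ≤ κ' * 1 := mul_le_mul_of_nonneg_left h3 hκ'p.le
        _ = κ' := mul_one _
    have h5 : K1 * κ' ≤ κ := by
      rw [hκ']
      have : K1 * (κ / (K1 + 1)) = κ * (K1 / (K1 + 1)) := by ring
      rw [this]
      have h3 : K1 / (K1 + 1) ≤ 1 := by
        rw [div_le_one (by positivity)]; linarith
      calc κ * (K1 / (K1 + 1)) ≤ κ * 1 := mul_le_mul_of_nonneg_left h3 hκ.le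
        _ = κ := mul_one _
    calc d0 * s ^ ν / (1 + Cu ^ 2) * H ^ 2 ≤ _ := hmain
      _ = K1 * (mixX (addF (addF β s θ) ε χ) (cF φ) +
          Cp / ε * J (addH (addF (addF β s θ) ε χ) U) (fun x => δ / (ρ x + δ) *
            trX (addH (addF (addF β s θ) ε χ) U) (addF (addF β s θ) ε χ) x)) := by
          rw [hK1]; ring
      _ ≤ K1 * (mixX (addF (addF β s θ) ε χ) (cF φ) + κ') :=
          mul_le_mul_of_nonneg_left (by linarith) hK10
      _ ≤ K1 * mixX (addF (addF β s θ) ε χ) (cF φ) + κ := by rw [mul_add]; linarith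
  -- `ε → 0`
  have step2 : ∀ s : ℝ, 0 < s →
      d0 * s ^ ν / (1 + Cu ^ 2) * H ^ 2 ≤ K1 * mixX (addF β s θ) (cF φ) := by
    intro s hs
    have hlim := (eps n X (addF β s θ) (cF φ) χ (isClosed_addF hβ hθ s)
      (INT.isClosedForm_canonical hφ) (INT.IsKahler.isClosedForm hχ)).const_mul K1
    refine ge_of_tendsto hlim ?_
    filter_upwards [self_mem_nhdsWithin] with ε hε using step1 s ε hs hε
  -- contradiction
  set a0 : ℝ := d0 / (1 + Cu ^ 2) * H ^ 2 with ha0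
  have ha0p : 0 < a0 := by positivity
  obtain ⟨s, hs1, hs2⟩ := (hgr.and_eventually (eventually_gt_atTop
    (max 1 (K1 * C₁ / a0)))).exists
  have hsp : 0 < s := lt_of_lt_of_le one_pos ((le_max_left _ _).trans hs2.le)
  have h1 := step2 s hsp
  have h2 := h1.trans (mul_le_mul_of_nonneg_left hs1 hK10)
  have hsν : 0 < s ^ ν := pow_pos hsp ν
  have h3 : a0 * s ^ ν ≤ K1 * C₁ / s * s ^ ν := by
    calc a0 * s ^ ν = d0 * s ^ ν / (1 + Cu ^ 2) * H ^ 2 := by rw [ha0]; ring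
      _ ≤ K1 * (C₁ * s ^ ν / s) := h2
      _ = K1 * C₁ / s * s ^ ν := by ring
  have h4 := le_of_mul_le_mul_right h3 hsν
  rw [le_div_iff₀ hsp] at h4
  have h5 : K1 * C₁ / a0 < s := (le_max_right _ _).trans_lt hs2
  rw [div_lt_iff₀ ha0p] at h5
  linarith

/-- the structure used by the core, for holomorphic tensors -/
theorem uR_structL {q : ℕ} {τ0 τ1 : D.Ten n q X} (hχ : IsKahler χ)
    (hφ : IsCanonicalMetric φ) (h0 : D.IsTen q 0 τ0) (h1 : D.IsTen q 0 τ1)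
    (hp : ∀ e x, At e x → ∀ I J, τ0 e (e x) I * τ1 e (e x) J = τ0 e (e x) J * τ1 e (e x) I)
    {g Θ : D.FormM n X} (hg : IsKahler g) (hΘf : IsForm Θ)
    (hΘ : ∀ e x, At e x → (Θ e (e x)).PosSemidef)
    (hric : ∀ e x, At e x → (Θ e (e x) + D.ric g e (e x)).PosSemidef) :
    ∃ S S0 : X → ℝ, SmoothFn (n := n) S ∧ SmoothFn (n := n) S0 ∧ (∀ x, 0 ≤ S x) ∧
      (∀ x, 0 ≤ S0 x) ∧ (∀ x ∈ nzSet τ0 ∩ nzSet τ1, 0 < S x ∧ 0 < S0 x ∧
        uR χ φ τ0 τ1 x = Real.log (S x) - Real.log (S0 x)) ∧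
      BochIneqT Θ g q S ∧ BochIneqT Θ g q S0 := by
  have hgH := hg.toIsHermitian
  have hχH := hχ.toIsHermitian
  refine ⟨normTen g φ 0 τ1, normTen g φ 0 τ0, H937.smooth_normTen hgH hφ h1,
    H937.smooth_normTen hgH hφ h0, fun x => H937.normTen_nonneg hgH x,
    fun x => H937.normTen_nonneg hgH x, ?_, bochIneqL hg hΘ hΘf hric hφ h1,
    bochIneqL hg hΘ hΘf hric hφ h0⟩
  rintro x ⟨hx0, hx1⟩
  refine ⟨normTen_pos hgH hφ h1 hx1, normTen_pos hgH hφ h0 hx0, ?_⟩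
  have hx := AMP.at_chartAt (n := n) x
  set e : Chart n X := chartAt (Cm n) x with he
  have hs0 := (H212.mem_nzSet h0 hx).1 hx0
  have hs1 := (H212.mem_nzSet h1 hx).1 hx1
  obtain ⟨J, hJ⟩ := Function.ne_iff.1 hs0
  simp only [Pi.zero_apply] at hJ
  have hprop := prop_const hp hx hJ
  have hc0 : τ1 e (e x) J / τ0 e (e x) J ≠ 0 := by
    intro h
    apply hs1
    funext I
    rw [hprop I, h, zero_mul]
    rfl
  have r1 := uR_eq hχH hφ h0 h1 hx hx0 hc0 hprop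
  have r2 := uR_eq hgH hφ h0 h1 hx hx0 hc0 hprop
  rw [r1, ← r2, uR]

/-- **GM-CORE** -/
theorem corePart (coh : CohPart) (eps : EpsPart) (mass : MassPart) : CorePart := by
  intro n q X _ _ _ _ _ _ χ hχ φ hφ m hm ρ hρ h0 C hC θ β hθ hβ hθ0 hβ0 ν hν C₁ hgr τ0 τ1 hτ0 hτ1 hp
    e x hx I hI hρx hP hr v hv
  have a0 := hτ0.holo e x hx I
  have a1 := hτ1.holo e x hx I
  -- make the quotient nonzero at `x`
  obtain ⟨c, hc⟩ : ∃ c : ℂ, τ1 e (e x) I + c * τ0 e (e x) I ≠ 0 := by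
    by_cases h : τ1 e (e x) I = 0
    · exact ⟨1, by rw [h, zero_add, one_mul]; exact hI⟩
    · exact ⟨0, by rwa [zero_mul, add_zero]⟩
  set τ2 : D.Ten n q X := fun e z I => τ1 e z I + c * τ0 e z I with hτ2
  have h2 : D.IsTen q 0 τ2 := by
    constructor
    · intro e x hx I
      exact (hτ1.holo e x hx I).add (analyticAt_const.mul (hτ0.holo e x hx I))
    · intro e e' x hx hx' I
      have r0 := hτ0.change e e' x hx hx' I
      have r1 := hτ1.change e e' x hx hx' I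
      rw [pow_zero, one_mul] at r0 r1 ⊢
      simp only [hτ2]
      rw [r0, r1]
      simp only [D.tenPull, mul_add, Finset.sum_add_distrib, Finset.mul_sum]
      congr 1
      exact Finset.sum_congr rfl fun K _ => by ring
  have hp2 : ∀ e x, At e x → ∀ I J, τ0 e (e x) I * τ2 e (e x) J =
      τ0 e (e x) J * τ2 e (e x) I := by
    intro e x hx I J
    simp only [hτ2]
    linear_combination hp e x hx I J
  have hI2 : τ2 e (e x) I ≠ 0 := hc
  have hmem : x ∈ nzSet τ0 ∩ nzSet τ2 := by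
    refine ⟨(H212.mem_nzSet hτ0 hx).2 fun h => hI ?_, (H212.mem_nzSet h2 hx).2 fun h => hI2 ?_⟩
    · rw [h]; rfl
    · rw [h]; rfl
  have hcore := core_u coh eps mass hχ hφ hm hρ h0 hC hθ hβ hθ0 hβ0 hgr (q := q)
    (Nat.cast_nonneg q) (V := nzSet τ0 ∩ nzSet τ2)
    ((H212.isOpen_nzSet hτ0).inter (H212.isOpen_nzSet h2)) (u := uR χ φ τ0 τ2)
    (fun g Θ hg hΘf hΘ hric => uR_structL hχ hφ hτ0 h2 hp2 hg hΘf hΘ hric) hx hmem hρx hP hr v hv
  simp only [xi_uR hχ.toIsHermitian hφ hτ0 h2 hp2 hx hI hI2] at hcore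
  have hne : τ2 e (e x) I / τ0 e (e x) I ≠ 0 := div_ne_zero hI2 hI
  have hsum : ∑ i, dz i (fun z => τ2 e z I / τ0 e z I) (e x) * v i = 0 := by
    have : (∑ i, dz i (fun z => τ2 e z I / τ0 e z I) (e x) * v i) =
        (τ2 e (e x) I / τ0 e (e x) I) * ∑ i, dz i (fun z => τ2 e z I / τ0 e z I) (e x) /
          (τ2 e (e x) I / τ0 e (e x) I) * v i := by
      rw [Finset.mul_sum]
      refine Finset.sum_congr rfl fun i _ => ?_
      field_simp
    rw [this, hcore, mul_zero]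
  have hf1 : DifferentiableAt ℂ (fun z => τ1 e z I / τ0 e z I) (e x) :=
    (a1.div a0 hI).differentiableAt
  have hf2 : DifferentiableAt ℂ (fun z => τ2 e z I / τ0 e z I) (e x) :=
    ((h2.holo e x hx I).div a0 hI).differentiableAt
  rw [← fderiv_eq_sum_dz hf2] at hsum
  rw [← hsum]
  have hev : (fun z => τ2 e z I / τ0 e z I) =ᶠ[𝓝 (e x)] fun z => τ1 e z I / τ0 e z I + c := by
    filter_upwards [a0.continuousAt.eventually_ne hI] with z hz
    simp only [hτ2]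
    field_simp
  rw [hev.fderiv_eq, fderiv_add_const]

end Vale.Agent.P281.H167.GM
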