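import Vale.Agent.P281.H167.GM.Tools

/-! P281, theorem GM: the local lower bound for `|∂u|²_G det G`. -/

open scoped Manifold ContDiff ComplexOrder Topology
open Complex Set Filter MeasureTheory Matrix

set_option linter.all false

noncomputable section

namespace Vale.Agent.P281.H167.GM

open Vale.Agent.P272.K Vale.Agent.P272.K.AMP Vale.Agent.P299.D Vale.Agent.P299 Vale.Agent.P299.H882
open Vale.Agent.P281.H167.SA
open INT (IsDensity intX IsClosedForm)

variable {n : ℕ} {X : Type} [TopologicalSpace X] [ChartedSpace (Cm n) X]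
  [IsManifold 𝓘(ℂ, Cm n) ω X]
  {w χ θ β : D.FormM n X}

lemma cont_QsL (hθ : IsClosedForm θ) (hβ : IsClosedForm β) {ξ : Cm n → Fin n → ℂ}
    {e : Chart n X} {x : X} (hx : At e x) (hR : (θ e (e x)).PosSemidef)
    (hP : (β e (e x)).PosDef) (hu : ∀ i, ContinuousAt (fun z => ξ z i) (e x)) {s : ℝ} (hs : 0 ≤ s) :
    ContinuousAt (fun z => QsG θ β (ξ z) e z s) (e x) := by
  have hpd : (chiG θ β s e (e x)).PosDef := pencil_posDef hP hR hs
  have hsm := (isClosed_addF hβ hθ s).smooth e x hx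
  have hsm' : ∀ i j, ContDiffAt ℝ ∞ (fun z => chiG θ β s e z i j) (e x) := by
    intro i j
    have : (fun z => chiG θ β s e z i j) = fun z => addF β s θ e z i j := by
      funext z; simp only [chiG, addF]; rw [add_comm]
    rw [this]; exact hsm i j
  have h1 : ∀ i j, ContinuousAt (fun z => (chiG θ β s e z)⁻¹ i j) (e x) := fun i j =>
    (contDiffAt_inv (m := ∞) hsm' hpd.det_pos.ne' i j).continuousAt
  have h2 : ContinuousAt (fun z => (chiG θ β s e z).det.re) (e x) :=
    Complex.continuous_re.continuousAt.comp (contDiffAt_det (m := ∞) hsm').continuousAt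
  have h3 : ContinuousAt (fun z => (β e z).det.re) (e x) :=
    Complex.continuous_re.continuousAt.comp
      (contDiffAt_det (m := ∞) (hβ.smooth e x hx)).continuousAt
  have h4 : ContinuousAt (fun z => qf (chiG θ β s e z) (ξ z)) (e x) := by
    unfold qf
    refine Complex.continuous_re.continuousAt.comp ?_
    simp only [Matrix.trace, Matrix.diag_apply, Matrix.mul_apply, vecMulVec_apply, Pi.star_apply]
    refine tendsto_finset_sum _ fun i _ => tendsto_finset_sum _ fun j _ => ?_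
    exact (h1 i j).mul ((hu j).mul ((continuous_star.continuousAt).comp (hu i)))
  exact h4.mul (h2.div h3 (Complex.pos_iff.1 hP.det_pos).1.ne')

lemma cont_qnL (hθ : IsClosedForm θ) (hβ : IsClosedForm β) (ν : ℕ) {ξ : Cm n → Fin n → ℂ}
    {e : Chart n X} {x : X} (hx : At e x) (hR : (θ e (e x)).PosSemidef)
    (hP : (β e (e x)).PosDef) (hu : ∀ i, ContinuousAt (fun z => ξ z i) (e x)) :
    ContinuousAt (fun z => qnG θ β ν (ξ z) e z) (e x) := by
  refine tendsto_finset_sum _ fun l _ => ?_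
  exact continuousAt_const.mul (cont_QsL hθ hβ hx hR hP hu (Nat.cast_nonneg _))

lemma exists_poly_qnL (ν : ℕ) (ξ : Fin n → ℂ) {e : Chart n X} {y : X}
    (hR : (θ e (e y)).PosSemidef) (hP : (β e (e y)).PosDef) : ∃ p : Polynomial ℝ, NN p ∧
      (∀ s : ℝ, 0 ≤ s → p.eval s = QsG θ β ξ e (e y) s) ∧ qnG θ β ν ξ e (e y) = p.coeff ν ∧
      ∀ v : Fin n → ℂ, (∀ j, ∑ i, v i * θ e (e y) i j = 0) → ∑ i, ξ i * v i ≠ 0 →
        0 < p.coeff (θ e (e y)).rank := by
  obtain ⟨p, h1, h2, h3, h4⟩ := exists_poly hP hR ξ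
  refine ⟨p, h2, h3, ?_, h4⟩
  rw [(exists_coeff_formula n ν).choose_spec p h1, qnG]
  refine Finset.sum_congr rfl fun l _ => ?_
  rw [h3 _ (Nat.cast_nonneg _)]
  rfl

/-- positivity near a point where the form is positive definite -/
lemma ev_posDef (hβ : IsClosedForm β) (hβ0 : ∀ e x, At e x → (β e (e x)).PosSemidef)
    {e : Chart n X} {x : X} (hx : At e x) (hP : (β e (e x)).PosDef) :
    ∀ᶠ y in 𝓝 x, At e y ∧ (β e (e y)).PosDef := by
  have h3 : ContinuousAt (fun z => (β e z).det.re) (e x) :=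
    Complex.continuous_re.continuousAt.comp
      (contDiffAt_det (m := ∞) (hβ.smooth e x hx)).continuousAt
  have h4 : ContinuousAt (fun y => (β e (e y)).det.re) x := h3.comp (f := e) (e.continuousAt hx.2)
  have h5 := h4.eventually (lt_mem_nhds (Complex.pos_iff.1 hP.det_pos).1)
  filter_upwards [h5, e.open_source.mem_nhds hx.2] with y h6 h7
  have hy : At e y := ⟨hx.1, h7⟩
  refine ⟨hy, (hβ0 e y hy).posDef_iff_isUnit.2 ?_⟩
  rw [Matrix.isUnit_iff_isUnit_det, isUnit_iff_ne_zero]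
  intro h
  rw [h] at h6
  simp at h6

/-- the lower bound for `|∂u|²_G det G`, `G = β + s θ + ε χ`, near a point -/
theorem lower_boundL (hθ : IsClosedForm θ) (hβ : IsClosedForm β)
    (hθ0 : ∀ e x, At e x → (θ e (e x)).PosSemidef) (hβ0 : ∀ e x, At e x → (β e (e x)).PosSemidef)
    (hχ : IsKahler χ) (hw : IsKahler w) {u : X → ℝ} {e : Chart n X} {x : X} (hx : At e x)
    (hP : (β e (e x)).PosDef) (hu : ∀ i, ContinuousAt (fun z => xi u e z i) (e x))
    (v : Fin n → ℂ) (hv : ∀ j, ∑ i, v i * θ e (e x) i j = 0)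
    (hne : ∑ i, xi u e (e x) i * v i ≠ 0) :
    ∃ δ : ℝ, 0 < δ ∧ ∀ᶠ y in 𝓝 x, At e y ∧ ∀ s ε : ℝ, 0 ≤ s → 0 ≤ ε →
      δ * s ^ (θ e (e x)).rank ≤ qf (addF (addF β s θ) ε χ e (e y)) (xi u e (e y)) *
        ((addF (addF β s θ) ε χ e (e y)).det.re / (w e (e y)).det.re) := by
  set ν := (θ e (e x)).rank with hν
  obtain ⟨p, -, -, hp3, hp4⟩ := exists_poly_qnL ν (xi u e (e x)) (hθ0 e x hx) hP
  have hqx : 0 < qnG θ β ν (xi u e (e x)) e (e x) := by
    rw [hp3]; exact hp4 v hv hne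
  have hqc := cont_qnL hθ hβ ν hx (hθ0 e x hx) hP hu
  have hwx : 0 < (w e (e x)).det.re := hw.toIsHermitian.det_re_pos hx
  have hβx : 0 < (β e (e x)).det.re := (Complex.pos_iff.1 hP.det_pos).1
  set q0 := qnG θ β ν (xi u e (e x)) e (e x) with hq0
  have hrc : ContinuousAt (fun z => (β e z).det.re / (w e z).det.re) (e x) := by
    refine ContinuousAt.div ?_ ?_ hwx.ne'
    · exact Complex.continuous_re.continuousAt.comp
        (contDiffAt_det (m := ∞) (hβ.smooth e x hx)).continuousAt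
    · exact Complex.continuous_re.continuousAt.comp
        (contDiffAt_det (m := ∞) (hw.smooth e x hx)).continuousAt
  set r0 := (β e (e x)).det.re / (w e (e x)).det.re with hr0
  have hr0p : 0 < r0 := div_pos hβx hwx
  refine ⟨q0 / 2 * (r0 / 2), by positivity, ?_⟩
  have h5 : ∀ᶠ y in 𝓝 x, q0 / 2 < qnG θ β ν (xi u e (e y)) e (e y) := by
    have : Tendsto (fun y => qnG θ β ν (xi u e (e y)) e (e y)) (𝓝 x) (𝓝 q0) :=
      hqc.tendsto.comp (e.continuousAt hx.2)
    exact this.eventually (lt_mem_nhds (half_lt_self hqx))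
  have h6 : ∀ᶠ y in 𝓝 x, r0 / 2 < (β e (e y)).det.re / (w e (e y)).det.re := by
    have : Tendsto (fun y => (β e (e y)).det.re / (w e (e y)).det.re) (𝓝 x) (𝓝 r0) :=
      hrc.tendsto.comp (e.continuousAt hx.2)
    exact this.eventually (lt_mem_nhds (half_lt_self hr0p))
  filter_upwards [h5, h6, ev_posDef hβ hβ0 hx hP] with y hy5 hy6 hy7
  obtain ⟨hy, hPy⟩ := hy7
  refine ⟨hy, fun s ε hs hε => ?_⟩
  obtain ⟨p, h1, h2, h3, -⟩ := exists_poly_qnL ν (xi u e (e y)) (hθ0 e y hy) hPy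
  have e1 : q0 / 2 * s ^ ν ≤ QsG θ β (xi u e (e y)) e (e y) s := by
    rw [← h2 s hs]
    refine le_trans ?_ (h1.le_eval hs ν)
    rw [h3] at hy5
    exact mul_le_mul_of_nonneg_right hy5.le (pow_nonneg hs ν)
  have hwy : 0 < (w e (e y)).det.re := hw.toIsHermitian.det_re_pos hy
  have hβy : 0 < (β e (e y)).det.re := (Complex.pos_iff.1 hPy.det_pos).1
  have hA : (addF β s θ e (e y)).PosDef := by
    have := pencil_posDef hPy (hθ0 e y hy) hs
    rwa [add_comm] at this
  have e2 := qf_det_mono hA (hχ.posDef e y hy).posSemidef (xi u e (e y)) hε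
  have e3 : QsG θ β (xi u e (e y)) e (e y) s =
      qf (addF β s θ e (e y)) (xi u e (e y)) * (addF β s θ e (e y)).det.re / (β e (e y)).det.re := by
    have : chiG θ β s e (e y) = addF β s θ e (e y) := by
      simp only [chiG, addF]; rw [add_comm]
    rw [QsG, this, mul_div_assoc]
  have e4 : q0 / 2 * s ^ ν * (r0 / 2) ≤ QsG θ β (xi u e (e y)) e (e y) s *
      ((β e (e y)).det.re / (w e (e y)).det.re) :=
    mul_le_mul e1 hy6.le (by positivity) ((by positivity : (0:ℝ) ≤ q0 / 2 * s ^ ν).trans e1)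
  have e5 : QsG θ β (xi u e (e y)) e (e y) s * ((β e (e y)).det.re / (w e (e y)).det.re) =
      qf (addF β s θ e (e y)) (xi u e (e y)) * (addF β s θ e (e y)).det.re /
        (w e (e y)).det.re := by
    rw [e3]
    field_simp
  calc q0 / 2 * (r0 / 2) * s ^ ν = q0 / 2 * s ^ ν * (r0 / 2) := by ring
    _ ≤ qf (addF β s θ e (e y)) (xi u e (e y)) * (addF β s θ e (e y)).det.re /
        (w e (e y)).det.re := by rw [← e5]; exact e4
    _ ≤ qf (addF β s θ e (e y) + (ε : ℂ) • χ e (e y)) (xi u e (e y)) *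
        (addF β s θ e (e y) + (ε : ℂ) • χ e (e y)).det.re / (w e (e y)).det.re :=
        div_le_div_of_nonneg_right e2 hwy.le
    _ = _ := by rw [mul_div_assoc]; rfl

end Vale.Agent.P281.H167.GM
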