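import Vale.Agent.P281.H167.SA.X1

/-! P281, theorem GM: the Bochner inequality for holomorphic covariant tensors on a Kähler
manifold `(X, g)` with `Ric(g) ≥ -θ`, `θ ≥ 0`. -/

open scoped Manifold ContDiff ComplexOrder Topology Matrix Kronecker
open Vale.Agent.P272.K Vale.Agent.P272.K.C2 Vale.Agent.P272.K.AMP Vale.Agent.P299
open Vale.Agent.P299.H954 Vale.Agent.P299.H937 Vale.Agent.P281.H167.SA

set_option linter.all false

noncomputable section

namespace Vale.Agent.P281.H167.GM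

variable {n p : ℕ} {X : Type*} [TopologicalSpace X] [ChartedSpace (Cm n) X]
  {w θ : D.FormM n X} {φ : Chart n X → Cm n → ℝ} {s : D.Ten n p X} {e : Chart n X} {x : X}

/-- `RmS (dual w) ≤ tr_w θ dual w` if `Ric(w) = -θ`, `θ ≥ 0` -/
theorem RmS_dual_le' (hw : IsKahler w) (hθ : (θ e (e x)).PosSemidef)
    (hric : (θ e (e x) + D.ric w e (e x)).PosSemidef) (hx : At e x) :
    (((w e (e x))⁻¹ * θ e (e x)).trace • dual (w e) (e x) -
      RmS (w e) (dual (w e)) (e x)).PosSemidef := by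
  have hg := hw.posDef e x hx
  have h1 : RmS (w e) (dual (w e)) (e x) =
      -((w e (e x))⁻¹ * D.ric w e (e x) * (w e (e x))⁻¹)ᵀ := by
    rw [RmS_dual (IsHermitian.MC hw.toIsHermitian hx) hg.det_pos.ne', RmS_self' hw hx]
  have h2 := (inv_mul_inv_le hg hθ).transpose
  have h3 : ((w e (e x))⁻¹ * (θ e (e x) + D.ric w e (e x)) * (w e (e x))⁻¹).PosSemidef := by
    have := hric.mul_mul_conjTranspose_same (w e (e x))⁻¹
    rwa [Matrix.conjTranspose_nonsing_inv, hg.isHermitian.eq] at this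
  have h4 := h2.add h3.transpose
  have e1 : ((w e (e x))⁻¹ * θ e (e x)).trace • dual (w e) (e x) -
      RmS (w e) (dual (w e)) (e x) =
      (((w e (e x))⁻¹ * θ e (e x)).trace • (w e (e x))⁻¹ -
        (w e (e x))⁻¹ * θ e (e x) * (w e (e x))⁻¹)ᵀ +
      ((w e (e x))⁻¹ * (θ e (e x) + D.ric w e (e x)) * (w e (e x))⁻¹)ᵀ := by
    rw [h1, Matrix.mul_add, Matrix.add_mul, Matrix.transpose_add, Matrix.transpose_sub,
      Matrix.transpose_smul, sub_neg_eq_add]
    show _ = _ - _ + (_ + _)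
    rw [dual]
    abel
  rw [e1]
  exact h4

variable [IsManifold 𝓘(ℂ, Cm n) ω X]

/-- `Δ|s|² ≥ |∇s|² - q tr_g θ |s|²` -/
theorem lap_normTenL (hw : IsKahler w) (hθ : ∀ e x, At e x → (θ e (e x)).PosSemidef)
    (hric : ∀ e x, At e x → (θ e (e x) + D.ric w e (e x)).PosSemidef) (hφ : IsCanonicalMetric φ)
    (hs : D.IsTen p 0 s) (hx : At e x) :
    gradT w φ 0 s e (e x) - p * trE w θ e (e x) * normTen w φ 0 s x ≤
      lapX w (normTen w φ 0 s) x := by
  have hwH := hw.toIsHermitian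
  have hwP := hwH.posDef e x hx
  have hus := smooth_normTen hwH hφ hs
  have hS : MC 2 (rowT s e) (e x) := MC_of_analyticAt (rowT_analytic hs hx)
  have hφ2 : ContDiffAt ℝ 2 (φ e) (e x) := (hφ.smooth e x hx).of_le (by norm_cast)
  have hG : MC 2 (w e) (e x) := IsHermitian.MC hwH hx
  have hH : MC 2 (metL p 0 w φ e) (e x) := MC_metL hG hwP.det_pos.ne' hφ2
  have hHh : ∀ᶠ y in 𝓝 (e x), (metL p 0 w φ e y).IsHermitian := by
    filter_upwards [eventually_at hx] with y hy
    have := (metL_posDef (p := p) (m := 0) (φ := φ) (hwH.posDef e _ hy.1)).isHermitian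
    rwa [hy.2] at this
  have hue : ∀ᶠ y in 𝓝 (e x), normTen w φ 0 s (e.symm y) = (sqL w φ 0 s e y).re := by
    filter_upwards [eventually_at hx] with y hy
    have := normTen_eq hwH hφ hs hy.1
    rw [hy.2] at this
    rw [this, nTen_eq]
  have hcj : ∀ᶠ y in 𝓝 (e x), (starRingEnd ℂ) (sqL w φ 0 s e y) = sqL w φ 0 s e y := by
    filter_upwards [eventually_at hx] with y hy
    have := sqL_real (s := s) (m := 0) (φ := φ) (hwH.posDef e _ hy.1)
    rw [hy.2] at this
    rw [this, Complex.conj_ofReal]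
  rw [lapX_chart hwH hus hx hue hcj]
  have e1 : ∀ k l, dz k (dzb l (sqL w φ 0 s e)) (e x) =
      (nab k (rowT s e) (metL p 0 w φ e) (e x) * metL p 0 w φ e (e x) *
        (nab l (rowT s e) (metL p 0 w φ e) (e x))ᴴ) () () -
        (rowT s e (e x) * RM k l (metL p 0 w φ e) (e x) * (rowT s e (e x))ᴴ) () () := by
    intro k l
    have := D2_sandwich (k := k) (l := l) hS hH (holNear_of_analyticAt (rowT_analytic hs hx)) hHh
      (metL_posDef hwP).det_pos.ne'
    have h2 := congrFun (congrFun this ()) ()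
    rw [Matrix.sub_apply] at h2
    exact h2
  have e2 : ∑ l, ∑ k, (w e (e x))⁻¹ l k *
      (rowT s e (e x) * RM k l (metL p 0 w φ e) (e x) * (rowT s e (e x))ᴴ) () () =
      (rowT s e (e x) * RmS (w e) (metL p 0 w φ e) (e x) * (rowT s e (e x))ᴴ) () () := by
    rw [RmS]
    simp only [Matrix.mul_sum, Matrix.sum_mul, Matrix.mul_smul, Matrix.smul_mul,
      Matrix.sum_apply, Matrix.smul_apply, smul_eq_mul]
  have hmet : metL p 0 w φ e = fun y => tp p (dual (w e) y) := by
    funext y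
    rw [metL]
    simp
  have htr : ((w e (e x))⁻¹ * θ e (e x)).trace = ((trE w θ e (e x) : ℝ) : ℂ) := by
    have h1 : (θ e (e x)).IsHermitian := (hθ e x hx).isHermitian
    have h2 : star ((w e (e x))⁻¹ * θ e (e x)).trace = ((w e (e x))⁻¹ * θ e (e x)).trace := by
      rw [← Matrix.trace_conjTranspose, Matrix.conjTranspose_mul, h1.eq,
        hwP.inv.isHermitian.eq, Matrix.trace_mul_comm]
    exact (Complex.conj_eq_iff_re.1 h2).symm
  have hle := RmS_tp_le (G := w e) p (MC_dual hG hwP.det_pos.ne') (dual_posDef hwP)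
    (RmS_dual_le' hw (hθ e x hx) (hric e x hx) hx)
  have hpos : 0 ≤ (rowT s e (e x) * ((((p : ℂ) * ((w e (e x))⁻¹ * θ e (e x)).trace) •
      tp p (dual (w e) (e x)) - RmS (w e) (fun y => tp p (dual (w e) y)) (e x))) *
        (rowT s e (e x))ᴴ) () () :=
    Matrix.PosSemidef.diag_nonneg (hle.mul_mul_conjTranspose_same _)
  have e4 : (rowT s e (e x) * ((((p : ℂ) * ((w e (e x))⁻¹ * θ e (e x)).trace) •
      tp p (dual (w e) (e x)) - RmS (w e) (fun y => tp p (dual (w e) y)) (e x))) *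
        (rowT s e (e x))ᴴ) () () = ((p * trE w θ e (e x) * normTen w φ 0 s x : ℝ) : ℂ) -
      (rowT s e (e x) * RmS (w e) (metL p 0 w φ e) (e x) * (rowT s e (e x))ᴴ) () () := by
    have h3 : sqL w φ 0 s e (e x) =
      (rowT s e (e x) * tp p (dual (w e) (e x)) * (rowT s e (e x))ᴴ) () () := by
      rw [sqL, hmet]
    rw [hmet, Matrix.mul_sub, Matrix.sub_mul, Matrix.sub_apply, Matrix.mul_smul, Matrix.smul_mul,
      Matrix.smul_apply, smul_eq_mul, ← h3, htr, sqL_real hwP, normTen_eq hwH hφ hs hx]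
    push_cast
    ring
  simp only [e1, mul_sub, Finset.sum_sub_distrib, e2]
  rw [e4] at hpos
  have h5 := (Complex.le_def.1 hpos).1
  rw [Complex.zero_re, Complex.sub_re, Complex.ofReal_re] at h5
  rw [Complex.sub_re, gradT]
  linarith

/-- **Bochner inequality.** `Δ log (|s|² + d) ≥ -q tr_g θ` -/
theorem bochL (hw : IsKahler w) (hθ : ∀ e x, At e x → (θ e (e x)).PosSemidef)
    (hθf : IsForm θ) (hric : ∀ e x, At e x → (θ e (e x) + D.ric w e (e x)).PosSemidef)
    (hφ : IsCanonicalMetric φ) (hs : D.IsTen p 0 s) {d : ℝ} (hd : 0 < d)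
    (x : X) : -(p * trX w θ x) ≤ lapX w (fun y => Real.log (normTen w φ 0 s y + d)) x := by
  set e : Chart n X := chartAt (Cm n) x with he
  have hx : At e x := AMP.at_chartAt x
  have hwH := hw.toIsHermitian
  have hwP := hwH.posDef e x hx
  have hus := smooth_normTen hwH hφ hs
  have one := one_ne_zero_inf
  set u : X → ℝ := normTen w φ 0 s with hu
  have hu0 : 0 ≤ u x := normTen_nonneg hwH x
  have hS : MC 1 (rowT s e) (e x) := MC_of_analyticAt (rowT_analytic hs hx)
  have hφ1 : ContDiffAt ℝ 1 (φ e) (e x) := (hφ.smooth e x hx).of_le (by norm_cast)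
  have hG : MC 1 (w e) (e x) := (IsHermitian.MC hwH hx).mono (by norm_num)
  have hH : MC 1 (metL p 0 w φ e) (e x) := MC_metL hG hwP.det_pos.ne' hφ1
  have hHh : ∀ᶠ y in 𝓝 (e x), (metL p 0 w φ e y).IsHermitian := by
    filter_upwards [eventually_at hx] with y hy
    have := (metL_posDef (p := p) (m := 0) (φ := φ) (hwH.posDef e _ hy.1)).isHermitian
    rwa [hy.2] at this
  set f : Cm n → ℝ := fun y => u (e.symm y) + d with hf
  have hfx : f (e x) = u x + d := by simp only [hf]; rw [e.left_inv hx.2]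
  have hf0 : 0 < f (e x) := by rw [hfx]; linarith
  have hu2 : ContDiffAt ℝ 2 (fun y => u (e.symm y)) (e x) := (hus e x hx).of_le (by norm_cast)
  have hf2 : ContDiffAt ℝ 2 f (e x) := hu2.add contDiffAt_const
  have hfc : (fun y => ((f y : ℝ) : ℂ)) =ᶠ[𝓝 (e x)] fun y => sqL w φ 0 s e y + (d : ℂ) := by
    filter_upwards [eventually_at hx] with y hy
    have h1 := normTen_eq hwH hφ hs hy.1
    have h2 := sqL_real (s := s) (m := 0) (φ := φ) (hwH.posDef e _ hy.1)
    rw [hy.2] at h1 h2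
    show (((u (e.symm y) + d : ℝ)) : ℂ) = _
    rw [Complex.ofReal_add, hu, h1, h2]
  have hsq : DifferentiableAt ℝ (sqL w φ 0 s e) (e x) :=
    (contDiff_sqL hwH hφ hs hx).differentiableAt (by simp)
  have hdz : ∀ k, dz k (fun y => ((f y : ℝ) : ℂ)) (e x) =
      (nab k (rowT s e) (metL p 0 w φ e) (e x) * metL p 0 w φ e (e x) * (rowT s e (e x))ᴴ) () () := by
    intro k
    rw [dz_congr k hfc, C2.dz_add k hsq (differentiableAt_const _)]
    have h1 := DM_sandwich' (k := k) hS hH ((holNear_of_analyticAt (rowT_analytic hs hx)).self k)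
      (metL_posDef hwP).det_pos.ne'
    have h2 := congrFun (congrFun h1 ()) ()
    rw [← h2]
    have h3 : dz k (fun _ : Cm n => (d : ℂ)) (e x) = 0 := by simp [dz]
    rw [h3, add_zero]
    rfl
  have hdzb : ∀ l, dzb l (fun y => ((f y : ℝ) : ℂ)) (e x) =
      (rowT s e (e x) * metL p 0 w φ e (e x) * (nab l (rowT s e) (metL p 0 w φ e) (e x))ᴴ) () () := by
    intro l
    rw [dzb_congr l hfc, C2.dzb_add l hsq (differentiableAt_const _)]
    have h1 := DMb_sandwich' (l := l) hS hH ((holNear_of_analyticAt (rowT_analytic hs hx)).self l)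
      hHh (metL_posDef hwP).det_pos.ne'
    have h2 := congrFun (congrFun h1 ()) ()
    rw [← h2]
    have h3 : dzb l (fun _ : Cm n => (d : ℂ)) (e x) = 0 := by simp [dzb]
    rw [h3, add_zero]
    rfl
  have hcf : cHess f (e x) = cHess (fun y => u (e.symm y)) (e x) := by
    rw [hf, C2.cHess_add hu2 contDiffAt_const, C2.cHess_const, add_zero]
  set T : ℝ := gradT w φ 0 s e (e x) with hT
  have htrX : trX w θ x = trE w θ e (e x) := trX_eq hwH hθf hx
  set t : ℝ := trE w θ e (e x) with ht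
  have ht0 : 0 ≤ t := trE_nonneg hwH (hθ e x hx) hx
  have hcs := cs_step (hwP.inv.posSemidef) (metL_posDef (p := p) (m := 0) (φ := φ) hwP).posSemidef
    (fun k => nab k (rowT s e) (metL p 0 w φ e) (e x)) (rowT s e (e x)) (u := u x) (d := d) hd
    (by
      have h1 := sqL_real (s := s) (m := 0) (φ := φ) hwP
      rw [← normTen_eq hwH hφ hs hx] at h1
      exact h1)
  have hlap := lap_normTenL hw hθ hric hφ hs hx
  have hq : lapX w (fun y => Real.log (u y + d)) x = (f (e x))⁻¹ * lapX w u x -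
      (f (e x) ^ 2)⁻¹ * (∑ l, ∑ k, (w e (e x))⁻¹ l k *
        ((nab k (rowT s e) (metL p 0 w φ e) (e x) * metL p 0 w φ e (e x) * (rowT s e (e x))ᴴ) () () *
        (rowT s e (e x) * metL p 0 w φ e (e x) *
          (nab l (rowT s e) (metL p 0 w φ e) (e x))ᴴ) () ())).re := by
    rw [lapX_eq hwH (smooth_log_normTen hwH hφ hs hd) hx, lapX_eq hwH hus hx]
    unfold lapE hess
    rw [trace_mul_cHess, trace_mul_cHess, ← Complex.re_ofReal_mul, ← Complex.re_ofReal_mul,
      ← Complex.sub_re]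
    congr 1
    simp only [Finset.mul_sum, ← Finset.sum_sub_distrib]
    refine Finset.sum_congr rfl fun l _ => Finset.sum_congr rfl fun k _ => ?_
    have h1 := C2.cHess_log hf2 hf0 k l
    rw [hcf, hdz, hdzb] at h1
    show (w e (e x))⁻¹ l k * cHess (fun y => Real.log (f y)) (e x) k l = _
    rw [h1]
    push_cast
    ring
  rw [hq, htrX, hfx]
  set g : ℝ := (∑ l, ∑ k, (w e (e x))⁻¹ l k *
        ((nab k (rowT s e) (metL p 0 w φ e) (e x) * metL p 0 w φ e (e x) * (rowT s e (e x))ᴴ) () () *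
        (rowT s e (e x) * metL p 0 w φ e (e x) *
          (nab l (rowT s e) (metL p 0 w φ e) (e x))ᴴ) () ())).re with hg
  have hud : 0 < u x + d := by linarith
  have h1 : ((u x + d) ^ 2)⁻¹ * g ≤ (u x + d)⁻¹ * T := by
    have h2 : ((u x + d) ^ 2)⁻¹ * g ≤ ((u x + d) ^ 2)⁻¹ * ((u x + d) * T) :=
      mul_le_mul_of_nonneg_left hcs (by positivity)
    have h3 : ((u x + d) ^ 2)⁻¹ * ((u x + d) * T) = (u x + d)⁻¹ * T := by
      field_simp
    rwa [h3] at h2
  have h4 : (u x + d)⁻¹ * (T - p * t * u x) ≤ (u x + d)⁻¹ * lapX w u x :=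
    mul_le_mul_of_nonneg_left hlap (inv_pos.2 hud).le
  have h5 : (u x + d)⁻¹ * u x ≤ 1 := by
    rw [inv_mul_le_iff₀ hud]; linarith
  have h6 : (u x + d)⁻¹ * (p * t * u x) ≤ p * t := by
    have : (u x + d)⁻¹ * (p * t * u x) = ((u x + d)⁻¹ * u x) * (p * t) := by ring
    rw [this]
    exact mul_le_of_le_one_left (by positivity) h5
  rw [mul_sub] at h4
  linarith

/-- **Block X1.** The Bochner inequality for holomorphic covariant `q`-tensors and a Kähler metric `g`
with `Ric(g) = -θ`, `θ ≥ 0`. -/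
theorem bochIneqL {g : D.FormM n X} (hg : IsKahler g)
    (hθ : ∀ e x, At e x → (θ e (e x)).PosSemidef) (hθf : IsForm θ)
    (hric : ∀ e x, At e x → (θ e (e x) + D.ric g e (e x)).PosSemidef) (hφ : IsCanonicalMetric φ)
    (hs : D.IsTen p 0 s) : BochIneqT θ g p (normTen g φ 0 s) :=
  bochIneqT_of hg (smooth_normTen hg.toIsHermitian hφ hs)
    (fun x => normTen_nonneg hg.toIsHermitian x)
    fun d hd x => bochL hg hθ hθf hric hφ hs hd x

end Vale.Agent.P281.H167.GM
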