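import Vale.Agent.P281.H167.GM.Iface
import Vale.Agent.P281.H167.GM.Boch
import Vale.Agent.P281.H167.SA.XC

/-! P281, theorem GM: tools for the analytic core. -/

open scoped Manifold ContDiff ComplexOrder Topology
open Complex Set Filter MeasureTheory Matrix

set_option linter.all false

noncomputable section

namespace Vale.Agent.P281.H167.GM

open Vale.Agent.P272.K Vale.Agent.P272.K.AMP Vale.Agent.P299.D Vale.Agent.P299 Vale.Agent.P299.H882
open Vale.Agent.P281.H167.SA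
open INT (IsDensity intX IsClosedForm)

section mat

variable {n : ℕ}

/-- `|ξ|²_A det A` is monotone in `A` -/
lemma qf_det_mono {A D : Matrix (Fin n) (Fin n) ℂ} (hA : A.PosDef) (hD : D.PosSemidef)
    (ξ : Fin n → ℂ) {t : ℝ} (ht : 0 ≤ t) :
    qf A ξ * A.det.re ≤ qf (A + (t : ℂ) • D) ξ * (A + (t : ℂ) • D).det.re := by
  obtain ⟨p, -, hN, hev, -⟩ := exists_poly hA hD ξ
  have hdet : 0 < A.det.re := (Complex.pos_iff.1 hA.det_pos).1
  have e0 := hev 0 le_rfl
  have e1 := hev t ht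
  have h1 := hN.le_eval ht 0
  rw [pow_zero, mul_one, Polynomial.coeff_zero_eq_eval_zero, e0, e1, Complex.ofReal_zero, zero_smul,
    zero_add, add_comm ((t : ℂ) • D) A] at h1
  have h2 := mul_le_mul_of_nonneg_right h1 hdet.le
  rw [mul_assoc, div_mul_cancel₀ _ hdet.ne', mul_assoc, div_mul_cancel₀ _ hdet.ne'] at h2
  exact h2

lemma mixD_eq {A : Matrix (Fin n) (Fin n) ℂ} (hA : A.PosDef) (B : Matrix (Fin n) (Fin n) ℂ) :
    mixD A B = (A⁻¹ * B).trace.re * A.det.re := by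
  have hdet : IsUnit A.det := isUnit_iff_ne_zero.2 hA.det_pos.ne'
  have h1 : A.adjugate = A.det • A⁻¹ := by
    rw [Matrix.inv_def, smul_smul, Ring.mul_inverse_cancel _ hdet, one_smul]
  have h2 : A.det = ((A.det.re : ℝ) : ℂ) := by
    have := (Complex.pos_iff.1 hA.det_pos).2
    exact Complex.ext rfl (by simpa using this.symm)
  rw [mixD, h1, Matrix.smul_mul, Matrix.trace_smul, smul_eq_mul, h2, Complex.re_ofReal_mul, mul_comm]
  rw [Complex.ofReal_re]

end mat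

variable {n : ℕ} {X : Type} [TopologicalSpace X] [ChartedSpace (Cm n) X]
  [IsManifold 𝓘(ℂ, Cm n) ω X]
  {g G w χ θ β : D.FormM n X} {φ : Chart n X → Cm n → ℝ} {m : ℕ} {ρ : X → ℝ}

lemma isForm_addF {A B : D.FormM n X} (hA : IsForm A) (hB : IsForm B) (t : ℝ) :
    IsForm (addF A t B) := by
  intro e e' x hx hx'
  have h1 := hA e e' x hx hx'
  have h2 := hB e e' x hx hx'
  simp only [addF]
  rw [h1, h2]
  simp only [Matrix.mul_add, Matrix.add_mul, Matrix.mul_smul, Matrix.smul_mul]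

lemma isClosed_addF {A B : D.FormM n X} (hA : IsClosedForm A) (hB : IsClosedForm B) (t : ℝ) :
    IsClosedForm (addF A t B) := hA.add (hB.smul (t : ℂ))

lemma psd_real_smul {M : Matrix (Fin n) (Fin n) ℂ} (hM : M.PosSemidef) {t : ℝ} (ht : 0 ≤ t) :
    ((t : ℂ) • M).PosSemidef := hM.smul (by exact_mod_cast ht)

/-- `φ + (1/m) log (ρ + δ)` is a metric on `K_X` -/
lemma isCanonical_phiD (hφ : IsCanonicalMetric φ) (hρ : SmoothFn (n := n) ρ) (h0 : ∀ x, 0 ≤ ρ x)
    {δ : ℝ} (hδ : 0 < δ) : IsCanonicalMetric (phiD φ m ρ δ) where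
  smooth e x hx := by
    refine (hφ.smooth e x hx).add (contDiffAt_const.mul (((hρ e x hx).add contDiffAt_const).log ?_))
    rw [hx.left_inv]
    have := h0 x
    linarith
  change e e' x hx hx' := by
    simp only [phiD]
    rw [hφ.change e e' x hx hx', hx.left_inv, hx'.left_inv]
    ring

lemma smooth_logR (hρ : SmoothFn (n := n) ρ) (h0 : ∀ x, 0 ≤ ρ x) (m : ℕ) {δ : ℝ} (hδ : 0 < δ) :
    SmoothFn (n := n) (fun x => (m : ℝ)⁻¹ * Real.log (ρ x + δ)) := by
  intro e x hx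
  refine contDiffAt_const.mul (((hρ e x hx).add contDiffAt_const).log ?_)
  rw [hx.left_inv]
  have := h0 x
  linarith

/-- the form `cHess φ` -/
abbrev cF (φ : Chart n X → Cm n → ℝ) : D.FormM n X := fun e z => cHess (φ e) z

lemma cHess_phiD (hφ : IsCanonicalMetric φ) (hρ : SmoothFn (n := n) ρ) (h0 : ∀ x, 0 ≤ ρ x)
    {δ : ℝ} (hδ : 0 < δ) {e : Chart n X} {x : X} (hx : At e x) :
    cHess (phiD φ m ρ δ e) (e x) = addH (cF φ) (fun x => (m : ℝ)⁻¹ * Real.log (ρ x + δ)) e (e x) := by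
  have h1 : ContDiffAt ℝ 2 (φ e) (e x) := (hφ.smooth e x hx).of_le (by norm_cast)
  have h2 : ContDiffAt ℝ 2 (fun y => (m : ℝ)⁻¹ * Real.log (ρ (e.symm y) + δ)) (e x) :=
    (smooth_logR hρ h0 m hδ e x hx).of_le (by norm_cast)
  exact C2.cHess_add h1 h2

/-- the positive form `i∂∂̄ φ_δ + C δ/(ρ + δ) χ` -/
def thP (φ : Chart n X → Cm n → ℝ) (m : ℕ) (ρ : X → ℝ) (C δ : ℝ) (χ : D.FormM n X) : D.FormM n X :=
  fun e z => cHess (phiD φ m ρ δ e) z + ((C * (δ / (ρ (e.symm z) + δ)) : ℝ) : ℂ) • χ e z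

lemma isForm_thP (hφ : IsCanonicalMetric φ) (hρ : SmoothFn (n := n) ρ) (h0 : ∀ x, 0 ≤ ρ x)
    (C : ℝ) {δ : ℝ} (hδ : 0 < δ) (hχ : IsForm χ) : IsForm (thP φ m ρ C δ χ) := by
  intro e e' x hx hx'
  have h1 := (INT.isClosedForm_canonical (isCanonical_phiD (m := m) hφ hρ h0 hδ)).form e e' x hx hx'
  have h2 := hχ e e' x hx hx'
  simp only [thP]
  rw [h1, h2, hx.left_inv, hx'.left_inv]
  simp only [Matrix.mul_add, Matrix.add_mul, Matrix.mul_smul, Matrix.smul_mul]

lemma smooth_thP (hφ : IsCanonicalMetric φ) (hρ : SmoothFn (n := n) ρ) (h0 : ∀ x, 0 ≤ ρ x)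
    (C : ℝ) {δ : ℝ} (hδ : 0 < δ) (hχ : IsHermitian χ) (e : Chart n X) (x : X) (hx : At e x)
    (i j : Fin n) : ContDiffAt ℝ ∞ (fun z => thP φ m ρ C δ χ e z i j) (e x) := by
  have h1 := (INT.isClosedForm_canonical (isCanonical_phiD (m := m) hφ hρ h0 hδ)).smooth e x hx i j
  have h2 := hχ.smooth e x hx i j
  have h3 : ContDiffAt ℝ ∞ (fun z => C * (δ / (ρ (e.symm z) + δ))) (e x) := by
    refine contDiffAt_const.mul (contDiffAt_const.div ((hρ e x hx).add contDiffAt_const) ?_)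
    rw [hx.left_inv]
    have := h0 x
    linarith
  have h4 : ContDiffAt ℝ ∞ (fun z => ((C * (δ / (ρ (e.symm z) + δ)) : ℝ) : ℂ)) (e x) :=
    Complex.ofRealCLM.contDiff.contDiffAt.comp (e x) h3
  exact h1.add (h4.mul h2)

lemma thP_psd {C : ℝ} (hC : CurvGe φ m ρ C χ) {δ : ℝ} (hδ : 0 < δ) {e : Chart n X} {x : X}
    (hx : At e x) : (thP φ m ρ C δ χ e (e x)).PosSemidef := by
  have := hC δ hδ e x hx
  unfold thP
  rwa [hx.left_inv]

/-- the trace of `thP` -/
lemma trX_thP (hg : IsHermitian g) (hφ : IsCanonicalMetric φ) (hρ : SmoothFn (n := n) ρ)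
    (h0 : ∀ x, 0 ≤ ρ x) (C : ℝ) {δ : ℝ} (hδ : 0 < δ) (hχ : IsForm χ) (x : X) :
    trX g (thP φ m ρ C δ χ) x = trX g (cF (phiD φ m ρ δ)) x +
      C * (δ / (ρ x + δ) * trX g χ x) := by
  have hx := at_chartAt (n := n) x
  have hcan := isCanonical_phiD (m := m) hφ hρ h0 hδ
  rw [trX_eq hg (isForm_thP hφ hρ h0 C hδ hχ) hx, trX_eq hg (INT.isClosedForm_canonical hcan).form hx,
    trX_eq hg hχ hx]
  unfold trE thP
  rw [hx.left_inv, tr_add, tr_smul]
  ring

section cpt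

variable [T2Space X] [CompactSpace X]

lemma mixX_congr {A A' B B' : D.FormM n X} (hA : ∀ e x, At e x → A e (e x) = A' e (e x))
    (hB : ∀ e x, At e x → B e (e x) = B' e (e x)) : mixX A B = mixX A' B' := by
  refine INT.intX_congr fun e x hx => ?_
  beta_reduce
  rw [hA e x hx, hB e x hx]

lemma J_trX {B : D.FormM n X} (hg : IsHermitian g) (hB : IsForm B) :
    J g (trX g B) = mixX g B := by
  unfold H882.J mixX
  refine INT.intX_congr fun e x hx => ?_
  beta_reduce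
  rw [hx.left_inv, trX_eq hg hB hx, mixD_eq (hg.posDef e x hx)]
  rfl

/-- comparison of the volume forms -/
lemma J_rel {c c0 δ : ℝ} (hg : IsHermitian g) (hw : IsHermitian w)
    (hlw : ∀ e x, At e x → Real.log (w e (e x)).det.re = φ e (e x) + c0)
    (hlg : ∀ e x, At e x → Real.log (g e (e x)).det.re = phiD φ m ρ δ e (e x) + c) (f : X → ℝ) :
    J g f = Real.exp (c - c0) * J w (fun x => f x * Real.exp ((m : ℝ)⁻¹ * Real.log (ρ x + δ))) := by
  unfold H882.J
  rw [← INT.intX_const_mul]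
  refine INT.intX_congr fun e x hx => ?_
  beta_reduce
  have h1 := congrArg Real.exp (hlw e x hx)
  have h2 := congrArg Real.exp (hlg e x hx)
  rw [Real.exp_log (hw.det_re_pos hx)] at h1
  rw [Real.exp_log (hg.det_re_pos hx)] at h2
  rw [h1, h2, hx.left_inv]
  simp only [phiD]
  rw [hx.left_inv]
  have e1 : φ e (e x) + (m : ℝ)⁻¹ * Real.log (ρ x + δ) + c =
      (c - c0) + ((m : ℝ)⁻¹ * Real.log (ρ x + δ)) + (φ e (e x) + c0) := by ring
  rw [e1, Real.exp_add, Real.exp_add]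
  ring

/-- the Yau metric with volume form `e^φ` in the class of `χ` -/
theorem exists_yauC (hYau : H835.YauStatement n X) (hχ : IsKahler χ) (hφ : IsCanonicalMetric φ) :
    ∃ (u : X → ℝ) (c : ℝ), SmoothFn (n := n) u ∧ IsKahler (addH χ u) ∧
      ∀ e x, At e x → Real.log (addH χ u e (e x)).det.re = φ e (e x) + c := by
  obtain ⟨u, c, hu, hpos, heq⟩ := hYau χ hχ _ (smoothFn_ricPot hχ.toIsHermitian hφ)
  refine ⟨u, c, hu, ?_, fun e x hx => ?_⟩
  · exact isKahler_of_closed' ((INT.IsKahler.isClosedForm hχ).add (INT.isClosedForm_cHess hu)) hpos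
  · have := heq e x hx
    rw [ricPot_eq hχ.toIsHermitian hφ hx] at this
    linarith

end cpt

end Vale.Agent.P281.H167.GM
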