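import Vale.Agent.P281.H167.GM.Final

/-! P281, theorem GM contains theorem SA (`K_X` semiample). -/

open scoped Manifold ContDiff Topology ComplexOrder
open Set Filter Metric Vale.Agent.P281.J Vale.Agent.P272.K

noncomputable section

namespace Vale.Agent.P281.H167.GM

open Vale.Agent.P281.H713.SA

theorem sa_of_gm : MainPart := by
  intro n p d hn X Z Y F _ _ _ _ _ _ _ _ _ _ _ _ _ _ _ _ _ _ _ _ χ hχ hsa j hj f hf 𝒢 h𝒢 hB i hi
  obtain ⟨m, N, s, hm, hs, hgen⟩ := hsa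
  have hji : ContMDiff 𝓘(ℂ, Cm d) 𝓘(ℂ, Cm n) ω (fun t => j (i t)) := hj.1.comp hi.hol
  have hjii : ∀ t, Function.Injective (mfderiv 𝓘(ℂ, Cm d) 𝓘(ℂ, Cm n) (fun t => j (i t)) t) := by
    intro t
    have h3 := mfderiv_comp (I := 𝓘(ℂ, Cm d)) (I' := 𝓘(ℂ, Cm n)) (I'' := 𝓘(ℂ, Cm n))
      (g := j) (f := i) t ((hj.1 (i t)).mdifferentiableAt (by simp))
      ((hi.hol t).mdifferentiableAt (by simp))
    have h4 : mfderiv 𝓘(ℂ, Cm d) 𝓘(ℂ, Cm n) (fun t => j (i t)) t = _ := h3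
    rw [h4]
    exact (hj.2.2.1 (i t)).comp (hi.immersive t)
  obtain ⟨χF, hχF⟩ := Vale.Agent.P281.H167.SA.pullPart n d X F (fun t => j (i t)) hji hjii χ hχ
  obtain ⟨x⟩ := (inferInstance : Nonempty X)
  obtain ⟨t⟩ := (inferInstance : Nonempty F)
  obtain ⟨b, hb⟩ := hgen x
  obtain ⟨c, hc⟩ := hgen (j (i t))
  refine goodMinimal hn χ hχ j hj f hf 𝒢 h𝒢 hB i hi hm s hs 0
    ⟨x, b, Fin.elim0, hb, fun y => ⟨0, Subsingleton.elim _ _⟩⟩ χ
    (IsKahler.isSemiKahler hχ) (fun x hx => absurd hx ?_) 0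
    ⟨t, c, Fin.elim0, hc, fun y => ⟨0, Subsingleton.elim _ _⟩⟩ χF
    (IsKahler.isSemiKahler hχF) fun x hx => absurd hx ?_
  · obtain ⟨b, hb⟩ := hgen x
    exact fun h => hb (h b)
  · obtain ⟨b, hb⟩ := hgen (j (i x))
    exact fun h => hb (h b)

end Vale.Agent.P281.H167.GM
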