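import Vale.Agent.P281.H713.SA.Defs

namespace Vale.Agent.P281.H167

open scoped Manifold ContDiff Topology ComplexOrder
open Set Vale.Agent.P281.J Vale.Agent.P272.K

section

variable {n : ℕ} {X : Type} [TopologicalSpace X] [ChartedSpace (Cm n) X]

/-- `β` is a smooth closed semipositive `(1,1)`-form on `X`, given by its coefficient matrices
`(β_{i j̄})` in the charts of `X`, which is positive definite at the points of a dense set (for
instance, the pull-back of a Kähler metric by a bimeromorphic holomorphic map). -/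
structure IsSemiKahler (β : Chart n X → Cm n → Matrix (Fin n) (Fin n) ℂ) : Prop where
  smooth : ∀ e x, At e x → ∀ i j, ContDiffAt ℝ ∞ (fun z => β e z i j) (e x)
  posSemidef : ∀ e x, At e x → (β e (e x)).PosSemidef
  change : ∀ e e' x, At e x → At e' x →
    β e (e x) = (jacM e e' x).transpose * β e' (e' x) * (jacM e e' x).map (starRingEnd ℂ)
  closed : ∀ e x, At e x → ∀ i j k,
    dz k (fun z => β e z i j) (e x) = dz i (fun z => β e z k j) (e x)
  dense : Dense {x | ∃ e, At e x ∧ (β e (e x)).PosDef}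

/-- The map to projective space with homogeneous coordinates `S b` has rank at least `ν` at some
point: its image has dimension at least `ν`. -/
def HasRank (n ν : ℕ) {X : Type} [TopologicalSpace X] [ChartedSpace (Cm n) X] {N : ℕ}
    (S : Fin N → X → ℂ) : Prop :=
  ∃ (x : X) (b₀ : Fin N) (c : Fin ν → Fin N), S b₀ x ≠ 0 ∧
    Function.Surjective fun (ξ : Cm n) (b : Fin ν) => dif (Cm n) (fun z => S (c b) z / S b₀ z) x ξ

/-- The tangent vector `w` at `z` is in the kernel of the differential of the map to projective space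
with homogeneous coordinates `H b`. -/
def PKer (n : ℕ) {X : Type} [TopologicalSpace X] [ChartedSpace (Cm n) X] {N : ℕ}
    (H : Fin N → X → ℂ) (z : X) (w : Cm n) : Prop :=
  ∀ b b', H b z * dif (Cm n) (H b') z w = H b' z * dif (Cm n) (H b) z w

/-- At the point `z` of the smooth hypersurface `g = 0`: either some tangent vector `w ≠ 0` of
`g = 0` is in the kernels of `β` and of the differential of the map `[H]` (`g = 0` is contracted), or
the restriction of the map `[H]` to `g = 0` has rank less than `ν`. -/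
def DegAt (n ν : ℕ) {X : Type} [TopologicalSpace X] [ChartedSpace (Cm n) X] {N : ℕ}
    (H : Fin N → X → ℂ) (g : X → ℂ) (β : Chart n X → Cm n → Matrix (Fin n) (Fin n) ℂ) (z : X) :
    Prop :=
  (∃ w : Cm n, w ≠ 0 ∧ dif (Cm n) g z w = 0 ∧ PKer n H z w ∧
    ∀ j, ∑ i, w i * β (chartAt (Cm n) z) (chartAt (Cm n) z z) i j = 0) ∨
  ∃ K : Submodule ℂ (Cm n), n ≤ ν + Module.finrank ℂ K ∧
    ∀ w ∈ K, dif (Cm n) g z w = 0 ∧ PKer n H z w

/-- `S b` are sections of `m K_X`, `ι : F → X` is holomorphic (the identity of `X`, or a fibre).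
Near every point of `F` at which all the `S b ∘ ι` vanish, `S b ∘ ι = (∏ g_i ^ a_i) H_b` in a frame
of `m K_X`, where the `H_b` have no common zero and the hypersurfaces `g_i = 0` of `F` are smooth: the
fixed divisor of the `S b ∘ ι` is locally `∑ a_i {g_i = 0}` and the moving part is generated by the
`H_b`.  Moreover each hypersurface `g_i = 0` is contracted by `([H], β)`, or the map `[H]` has rank
less than `ν` on it. -/
def IsGoodFix (n d m ν : ℕ) {X F : Type} [TopologicalSpace X] [ChartedSpace (Cm n) X]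
    [TopologicalSpace F] [ChartedSpace (Cm d) F] (ι : F → X) {N : ℕ} (S : Fin N → X → ℂ)
    (β : Chart d F → Cm d → Matrix (Fin d) (Fin d) ℂ) : Prop :=
  ∀ x : F, (∀ b, S b (ι x) = 0) → ∃ (r : ℕ) (g : Fin r → F → ℂ) (a : Fin r → ℕ)
    (H : Fin N → F → ℂ),
    (∀ i, HolAt (Cm d) (g i) x ∧ dif (Cm d) (g i) x ≠ 0) ∧ (∀ b, HolAt (Cm d) (H b) x) ∧
    (∃ b, H b x ≠ 0) ∧ ∀ᶠ z in 𝓝 x, (∀ b, S b (ι z) = (∏ i, g i z ^ a i) * H b z *
      ContinuousLinearMap.det (mfderiv 𝓘(ℂ, Cm n) 𝓘(ℂ, Cm n) (chartAt (Cm n) (ι x)) (ι z) :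
        Cm n →L[ℂ] Cm n) ^ m) ∧
      ∀ i, g i z = 0 → DegAt d ν H (g i) β z

end

end Vale.Agent.P281.H167
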