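import Vale.Agent.P281.H167.SA.X1
import Vale.Agent.P281.H713.SA.Iface
import Vale.Agent.P281.H949.SA.M
import Vale.Agent.P299.H835.Iface

/-! P281, theorem GM (good minimal models with canonical singularities): the blocks of the proof, as
propositions. -/

open scoped Manifold ContDiff Topology ComplexOrder
open Set Filter Vale.Agent.P281.J Vale.Agent.P272.K Vale.Agent.P272.K.AMP Vale.Agent.P299
open Vale.Agent.P299.H882 (J)
open Vale.Agent.P272.K.INT (intX IsClosedForm)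

noncomputable section

namespace Vale.Agent.P281.H167.GM

open Vale.Agent.P281.H713.SA
open Vale.Agent.P281.H949.SA (coef)
open Vale.Agent.P299.H223 (nsq)

section defs

variable {n : ℕ}

/-- the derivative of `det` at `A` in the direction `B` -/
def mixD (A B : Matrix (Fin n) (Fin n) ℂ) : ℝ := (A.adjugate * B).trace.re

variable {X : Type} [TopologicalSpace X] [ChartedSpace (Cm n) X]

/-- the number `n ∫ A ^ (n - 1) ∧ B` -/
def mixX [T2Space X] [CompactSpace X] [IsManifold 𝓘(ℂ, Cm n) ω X] (A B : D.FormM n X) : ℝ :=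
  intX fun (e : Chart n X) z => mixD (A e z) (B e z)

/-- the form `A + t B` -/
def addF (A : D.FormM n X) (t : ℝ) (B : D.FormM n X) : D.FormM n X :=
  fun e z => A e z + (t : ℂ) • B e z

/-- the metric `φ + (1/m) log (ρ + δ)` on `K_X` -/
def phiD (φ : Chart n X → Cm n → ℝ) (m : ℕ) (ρ : X → ℝ) (δ : ℝ) (e : Chart n X) (z : Cm n) : ℝ :=
  φ e z + (m : ℝ)⁻¹ * Real.log (ρ (e.symm z) + δ)

/-- the metrics `φ + (1/m) log (ρ + δ)` have curvature `≥ - C δ/(ρ + δ) G` -/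
def CurvGe (φ : Chart n X → Cm n → ℝ) (m : ℕ) (ρ : X → ℝ) (C : ℝ) (G : D.FormM n X) : Prop :=
  ∀ δ : ℝ, 0 < δ → ∀ e x, At e x → (cHess (phiD φ m ρ δ e) (e x) +
    ((C * (δ / (ρ x + δ)) : ℝ) : ℂ) • G e (e x)).PosSemidef

end defs

/-- **GM-C1**: `∫ A ^ (n - 1) ∧ B` depends only on the classes of the closed forms `A`, `B`. -/
def CohPart : Prop := ∀ (n : ℕ) (X : Type) [TopologicalSpace X] [T2Space X] [CompactSpace X]
  [ChartedSpace (Cm n) X] [IsManifold 𝓘(ℂ, Cm n) ω X] (A B : D.FormM n X) (_ : IsClosedForm A)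
  (_ : IsClosedForm B) (u v : X → ℝ) (_ : SmoothFn (n := n) u) (_ : SmoothFn (n := n) v),
  mixX (addH A u) (addH B v) = mixX A B

/-- **GM-C2**: continuity at `ε = 0`. -/
def EpsPart : Prop := ∀ (n : ℕ) (X : Type) [TopologicalSpace X] [T2Space X] [CompactSpace X]
  [ChartedSpace (Cm n) X] [IsManifold 𝓘(ℂ, Cm n) ω X] (A B C : D.FormM n X) (_ : IsClosedForm A)
  (_ : IsClosedForm B) (_ : IsClosedForm C),
  Tendsto (fun ε : ℝ => mixX (addF A ε C) B) (𝓝[>] 0) (𝓝 (mixX A B))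

/-- **GM-E**: no mass on the zero set of `ρ`. -/
def MassPart : Prop := ∀ (n : ℕ) (X : Type) [TopologicalSpace X] [T2Space X] [CompactSpace X]
  [ConnectedSpace X] [ChartedSpace (Cm n) X] [IsManifold 𝓘(ℂ, Cm n) ω X]
  (G : D.FormM n X) (_ : IsKahler G) (φ : Chart n X → Cm n → ℝ) (_ : IsCanonicalMetric φ) (m : ℕ)
  (_ : 0 < m) (ρ : X → ℝ) (_ : SmoothFn (n := n) ρ) (_ : ∀ x, 0 ≤ ρ x) (_ : ∃ x, 0 < ρ x) (C : ℝ)
  (_ : CurvGe φ m ρ C G) (κ : ℝ) (_ : 0 < κ), ∃ δ₀ : ℝ, 0 < δ₀ ∧ ∀ δ : ℝ, 0 < δ → δ ≤ δ₀ →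
    ∀ (U : X → ℝ) (c : ℝ), SmoothFn (n := n) U → IsKahler (addH G U) →
      (∀ e x, At e x → Real.log (addH G U e (e x)).det.re = phiD φ m ρ δ e (e x) + c) →
      J (addH G U) (fun x => δ / (ρ x + δ) * trX (addH G U) G x) ≤ κ

/-- **GM-CORE** (block X for `m K = M + N`).  `u = τ1 / τ0` a quotient of proportional holomorphic
covariant tensors; `θ ≥ 0`, `β ≥ 0` closed forms with `K · (β + s θ)^{n-1} ≤ C s^{ν-1}` for a sequence
`s → ∞`; `φ + (1/m) log (ρ + δ)` metrics on `K_X` with curvature `≥ - C δ/(ρ + δ) χ`. -/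
def CorePart : Prop := ∀ (n q : ℕ) (X : Type) [TopologicalSpace X] [T2Space X] [CompactSpace X]
  [ConnectedSpace X] [ChartedSpace (Cm n) X] [IsManifold 𝓘(ℂ, Cm n) ω X]
  (χ : D.FormM n X) (_ : IsKahler χ) (φ : Chart n X → Cm n → ℝ) (_ : IsCanonicalMetric φ) (m : ℕ)
  (_ : 0 < m) (ρ : X → ℝ) (_ : SmoothFn (n := n) ρ) (_ : ∀ x, 0 ≤ ρ x) (C : ℝ)
  (_ : CurvGe φ m ρ C χ)
  (θ β : D.FormM n X) (_ : IsClosedForm θ) (_ : IsClosedForm β)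
  (_ : ∀ e x, At e x → (θ e (e x)).PosSemidef) (_ : ∀ e x, At e x → (β e (e x)).PosSemidef)
  (ν : ℕ) (_ : ∀ e x, At e x → (θ e (e x)).rank ≤ ν)
  (C₁ : ℝ) (_ : ∃ᶠ s : ℝ in atTop, mixX (addF β s θ) (fun e z => cHess (φ e) z) ≤ C₁ * s ^ ν / s)
  (τ0 τ1 : D.Ten n q X) (_ : D.IsTen q 0 τ0) (_ : D.IsTen q 0 τ1)
  (_ : ∀ e x, At e x → ∀ I J, τ0 e (e x) I * τ1 e (e x) J = τ0 e (e x) J * τ1 e (e x) I)
  (e : Chart n X) (x : X) (_ : At e x) (I : Fin q → Fin n) (_ : τ0 e (e x) I ≠ 0) (_ : 0 < ρ x)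
  (_ : (β e (e x)).PosDef) (_ : (θ e (e x)).rank = ν) (v : Cm n)
  (_ : ∀ j, ∑ i, v i * θ e (e x) i j = 0),
  fderiv ℂ (fun z => τ1 e z I / τ0 e z I) (e x) v = 0

/-- The sections `S b` of `m K_X` (not all zero) generate locally principal ideals: `m K_X = M + N`
where `M` is generated by the `S b` and `N ≥ 0` is their fixed divisor. -/
structure IsMoving (n : ℕ) {X : Type} [TopologicalSpace X] [ChartedSpace (Cm n) X] (m : ℕ) {N : ℕ}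
    (S : Fin N → X → ℂ) : Prop where
  pos : 0 < m
  sec : ∀ b, IsPluri (n := n) m (S b)
  princ : ∀ x, ∃ b₀, ∀ b, ∃ h : X → ℂ, HolAt (Cm n) h x ∧ ∀ᶠ z in 𝓝 x, S b z = h z * S b₀ z
  ne : ∃ b x, S b x ≠ 0

/-- **GM-F**: the singular metric of `K_X` defined by the sections. -/
def FormPart : Prop := ∀ (n : ℕ) (X : Type) [TopologicalSpace X] [T2Space X] [CompactSpace X]
  [ConnectedSpace X] [ChartedSpace (Cm n) X] [IsManifold 𝓘(ℂ, Cm n) ω X]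
  (χ : D.FormM n X) (_ : IsKahler χ) (m N : ℕ) (S : Fin N → X → ℂ) (_ : IsMoving n m S),
  ∃ (φ : Chart n X → Cm n → ℝ) (ρ : X → ℝ) (C : ℝ) (θ : D.FormM n X), IsCanonicalMetric φ ∧
    SmoothFn (n := n) ρ ∧ (∀ x, 0 ≤ ρ x) ∧ (∀ x, ρ x = 0 ↔ ∀ b, S b x = 0) ∧ CurvGe φ m ρ C χ ∧
    IsClosedForm θ ∧ (∀ e x, At e x → (θ e (e x)).PosSemidef) ∧
    (∀ e x, At e x → 0 < ρ x → θ e (e x) = cHess (phiD φ m ρ 0 e) (e x)) ∧
    (∀ e x, At e x → ρ x * Real.exp (m * φ e (e x)) = nsq (coef m S e (e x))) ∧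
    (∀ e x, At e x → ∀ b₀, S b₀ x ≠ 0 → θ e (e x) = (((m : ℝ)⁻¹ : ℝ) : ℂ) • cHess (fun z =>
      Real.log (∑ b, ‖S b (e.symm z) / S b₀ (e.symm z)‖ ^ 2)) (e x)) ∧
    ∀ e x, At e x → ∀ b₀, S b₀ x ≠ 0 → ∀ v : Cm n,
      (∀ j, ∑ i, v i * θ e (e x) i j = 0) ↔
        ∀ b, fderiv ℂ (fun z => S b (e.symm z) / S b₀ (e.symm z)) (e x) v = 0

/-- `t 0, …, t k` are homogeneous coordinates of a holomorphic map `X → ℙ^k`. -/
def IsProjMap (n : ℕ) {X : Type} [TopologicalSpace X] [ChartedSpace (Cm n) X] {k : ℕ}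
    (t : Fin k → X → ℂ) : Prop :=
  ∀ x, ∃ b₀, ∀ᶠ z in 𝓝 x, t b₀ z ≠ 0 ∧ ∀ b, HolAt (Cm n) (fun z => t b z / t b₀ z) z

/-- **GM-B**: the pull-back of the Fubini–Study form by a holomorphic map `X → ℙ^k`. -/
def FSPart : Prop := ∀ (n : ℕ) (X : Type) [TopologicalSpace X] [T2Space X]
  [ChartedSpace (Cm n) X] [IsManifold 𝓘(ℂ, Cm n) ω X] (k : ℕ) (t : Fin k → X → ℂ)
  (_ : IsProjMap n t), ∃ β : D.FormM n X, IsClosedForm β ∧
    (∀ e x, At e x → (β e (e x)).PosSemidef) ∧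
    (∀ e x, At e x → ∀ b₀, t b₀ x ≠ 0 → β e (e x) = cHess (fun z => Real.log
      (∑ b, ‖t b (e.symm z) / t b₀ (e.symm z)‖ ^ 2)) (e x)) ∧
    ∀ e x, At e x → ∀ b₀, t b₀ x ≠ 0 → ((β e (e x)).PosDef ↔ ∀ v : Cm n,
      (∀ b, fderiv ℂ (fun z => t b (e.symm z) / t b₀ (e.symm z)) (e x) v = 0) → v = 0)

/-- The fixed divisor `N` of the `S b` is contracted: there are `n - 1` hyperplane sections `A_j` of
the map `t` and `n - 1` members `M_j` of the moving part, such that no point of `N` belongs to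
`A_j ∪ M_j` for all `j`. -/
def IsContracted (n : ℕ) {X : Type} [TopologicalSpace X] [ChartedSpace (Cm n) X] {N k : ℕ}
    (S : Fin N → X → ℂ) (t : Fin k → X → ℂ) : Prop :=
  ∃ (ℓ : Fin (n - 1) → Fin k → ℂ) (h : Fin (n - 1) → Fin N → ℂ), ∀ x, (∀ b, S b x = 0) →
    ∃ j, ∑ b, ℓ j b * t b x ≠ 0 ∧ ∃ (b₀ : Fin N) (H : Fin N → X → ℂ),
      (∀ b, HolAt (Cm n) (H b) x ∧ ∀ᶠ z in 𝓝 x, S b z = H b z * S b₀ z) ∧
      ∑ b, h j b * H b x ≠ 0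

/-- **GM-H**: growth of `K · (β + s θ)^{n-1}` if the fixed divisor is contracted. -/
def GrowthPart : Prop := ∀ (n : ℕ) (X : Type) [TopologicalSpace X] [T2Space X] [CompactSpace X]
  [ConnectedSpace X] [ChartedSpace (Cm n) X] [IsManifold 𝓘(ℂ, Cm n) ω X]
  (m N k : ℕ) (S : Fin N → X → ℂ) (_ : IsMoving n m S) (t : Fin k → X → ℂ)
  (_ : IsProjMap n t) (_ : IsContracted n S t)
  (φ : Chart n X → Cm n → ℝ) (_ : IsCanonicalMetric φ) (ρ : X → ℝ) (_ : SmoothFn (n := n) ρ)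
  (_ : ∀ x, 0 ≤ ρ x) (_ : ∀ x, ρ x = 0 ↔ ∀ b, S b x = 0)
  (θ β : D.FormM n X) (_ : IsClosedForm θ) (_ : IsClosedForm β)
  (_ : ∀ e x, At e x → (θ e (e x)).PosSemidef) (_ : ∀ e x, At e x → (β e (e x)).PosSemidef)
  (_ : ∀ e x, At e x → 0 < ρ x → θ e (e x) = cHess (phiD φ m ρ 0 e) (e x))
  (_ : ∀ e x, At e x → ρ x * Real.exp (m * φ e (e x)) = nsq (coef m S e (e x)))
  (_ : ∀ e x, At e x → ∀ b₀, S b₀ x ≠ 0 → θ e (e x) = (((m : ℝ)⁻¹ : ℝ) : ℂ) • cHess (fun z =>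
    Real.log (∑ b, ‖S b (e.symm z) / S b₀ (e.symm z)‖ ^ 2)) (e x))
  (_ : ∀ e x, At e x → ∀ b₀, t b₀ x ≠ 0 → β e (e x) = cHess (fun z => Real.log
    (∑ b, ‖t b (e.symm z) / t b₀ (e.symm z)‖ ^ 2)) (e x))
  (ν : ℕ) (_ : ∀ e x, At e x → (θ e (e x)).rank ≤ ν),
  ∃ C₁ : ℝ, ∃ᶠ s : ℝ in atTop,
    mixX (addF β s θ) (fun e z => cHess (φ e) z) ≤ C₁ * s ^ ν / s

end Vale.Agent.P281.H167.GM
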