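import Vale.Agent.P281.H167.GM.M7
import Vale.Agent.P281.H167.GM.Core
import Vale.Agent.P281.H167.SA.K
import Vale.Agent.P281.H713.SA.Main
import Vale.Agent.P281.H949.GM.F
import Vale.Agent.P281.H283.GME
import Vale.Agent.P281.H227.GMC
import Vale.Agent.P281.H368.GM.K7
import Vale.Agent.P281.H787.RB

/-! P281, theorem GM (good minimal models): the unconditional theorem. -/

open scoped Manifold ContDiff Topology ComplexOrder
open Set Filter Metric Vale.Agent.P281.J Vale.Agent.P272.K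

noncomputable section

namespace Vale.Agent.P281.H167.GM

open Vale.Agent.P281.H713.SA Vale.Agent.P281.H368.GM

theorem corePart' : CorePart :=
  corePart Vale.Agent.P281.H227.GMC.cohPart Vale.Agent.P281.H227.GMC.epsPart
    Vale.Agent.P281.H283.GME.massPart

/-- **Theorem GM**. -/
theorem goodMinimal {n p d : ℕ} (hn : n = p + d) {X Z Y F : Type}
    [TopologicalSpace X] [T2Space X] [CompactSpace X] [ConnectedSpace X]
    [ChartedSpace (Cm n) X] [IsManifold 𝓘(ℂ, Cm n) ω X]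
    [TopologicalSpace Z] [ChartedSpace (Cm n) Z] [IsManifold 𝓘(ℂ, Cm n) ω Z]
    [TopologicalSpace Y] [T2Space Y] [ConnectedSpace Y]
    [ChartedSpace (Cm p) Y] [IsManifold 𝓘(ℂ, Cm p) ω Y]
    [TopologicalSpace F] [T2Space F] [CompactSpace F] [ConnectedSpace F]
    [ChartedSpace (Cm d) F] [IsManifold 𝓘(ℂ, Cm d) ω F]
    (χ : Chart n X → Cm n → Matrix (Fin n) (Fin n) ℂ) (hχ : IsKahler χ)
    (j : Z → X) (hj : J.IsBigOpen (Cm n) j)
    (f : Z → Y) (hf : ContMDiff 𝓘(ℂ, Cm n) 𝓘(ℂ, Cm p) ω f)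
    (𝒢 : Set (Set Y)) (h𝒢 : J.IsDivisorial (Cm n) (Cm p) f 𝒢)
    (hB : ∀ G, J.orbBase' (Cm n) (Cm p) f 0 G ≠ 0 → G ∈ 𝒢)
    (i : F → Z) (hi : H713.IsSmoothFibre (Cm n) (Cm p) (Cm d) f i)
    {m N : ℕ} (hm : 0 < m) (S : Fin N → X → ℂ)
    (hS : ∀ b, J.IsSection (Cm n) (fun (D : Set X) z g => J.IsLocalEq (Cm n) D g z) m 0 (S b))
    (ν : ℕ) (hν : HasRank n ν S) (β : Chart n X → Cm n → Matrix (Fin n) (Fin n) ℂ)
    (hβ : H167.IsSemiKahler β) (hN : H167.IsGoodFix n n m ν (id : X → X) S β)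
    (νF : ℕ) (hνF : HasRank d νF fun b t => S b (j (i t)))
    (βF : Chart d F → Cm d → Matrix (Fin d) (Fin d) ℂ) (hβF : H167.IsSemiKahler βF)
    (hNF : H167.IsGoodFix n d m νF (fun t => j (i t)) S βF) :
    J.kod (Cm d) (fun (C : Set F) x g => J.IsLocalEq (Cm d) C g x) 0 +
      J.kod (Cm p) (fun (G : Set Y) y g => J.IsLocalEq (Cm p) G g y) (J.orbBase' (Cm n) (Cm p) f 0) ≤
      J.kod (Cm n) (fun (D : Set X) x g => J.IsLocalEq (Cm n) D g x) 0 :=
  main_K Vale.Agent.P281.H787.restrPartB tensorPart Vale.Agent.P281.H167.SA.pullPart corePart'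
    Vale.Agent.P281.H949.GM.formPart growthKPart hn hχ hj hf h𝒢 hB hi hm hS hν hβ hN hνF hβF hNF

end Vale.Agent.P281.H167.GM
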