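import Vale.Agent.P281.H713.SA.G5

/-! P281, theorem GM, main part (abstract form): the inequality from data `(S, θ, R)` on `X` and on
the fibre. -/

open scoped Manifold ContDiff Topology ComplexOrder
open Set Filter Metric Vale.Agent.P281.J Vale.Agent.P272.K

noncomputable section

namespace Vale.Agent.P281.H167.GM

open Vale.Agent.P281 Vale.Agent.P281.MF Vale.Agent.P281.ISO Vale.Agent.P299.D
open Vale.Agent.P281.H713.SA

set_option linter.unusedSectionVars false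

/-- quotients of proportional holomorphic tensors are constant along `ker θ` at the points of `R` -/
def ConstOn (n : ℕ) {X : Type} [TopologicalSpace X] [ChartedSpace (Cm n) X] (R : Set X)
    (θ : Chart n X → Cm n → Matrix (Fin n) (Fin n) ℂ) : Prop :=
  ∀ (q : ℕ) (τ0 τ1 : Ten n q X) (_ : IsTen q 0 τ0) (_ : IsTen q 0 τ1)
    (_ : ∀ e x, At e x → ∀ I J, τ0 e (e x) I * τ1 e (e x) J = τ0 e (e x) J * τ1 e (e x) I)
    (e : Chart n X) (x : X) (_ : At e x) (_ : x ∈ R) (I : Fin q → Fin n) (_ : τ0 e (e x) I ≠ 0)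
    (v : Cm n) (_ : ∀ j, ∑ i, v i * θ e (e x) i j = 0),
    fderiv ℂ (fun z => τ1 e z I / τ0 e z I) (e x) v = 0

/-- the data used in the proof -/
structure Dat (n : ℕ) {X : Type} [TopologicalSpace X] [ChartedSpace (Cm n) X] (m : ℕ) {N : ℕ}
    (S : Fin N → X → ℂ) (θ : Chart n X → Cm n → Matrix (Fin n) (Fin n) ℂ) (R : Set X) : Prop where
  pos : 0 < m
  sec : ∀ b, IsPluri (n := n) m (S b)
  op : IsOpen R
  de : Dense R
  ne : ∀ x ∈ R, ∃ b, S b x ≠ 0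
  ker : ∀ e x, At e x → ∀ b₀, S b₀ x ≠ 0 → ∀ v : Cm n,
      (∀ j, ∑ i, v i * θ e (e x) i j = 0) ↔
        ∀ b, fderiv ℂ (fun z => S b (e.symm z) / S b₀ (e.symm z)) (e x) v = 0
  const : ConstOn n R θ

section Good

variable {n p : ℕ} {X Z Y : Type} [TopologicalSpace X] [ChartedSpace (Cm n) X]
  [IsManifold 𝓘(ℂ, Cm n) ω X] [TopologicalSpace Z] [ChartedSpace (Cm n) Z]
  [IsManifold 𝓘(ℂ, Cm n) ω Z] [TopologicalSpace Y] [ChartedSpace (Cm p) Y]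
  [IsManifold 𝓘(ℂ, Cm p) ω Y]

theorem sections_const' (hT : TensorPart) [T2Space X] [CompactSpace X]
    [ConnectedSpace X] {θ : Chart n X → Cm n → Matrix (Fin n) (Fin n) ℂ} {R : Set X}
    (hX : ConstOn n R θ)
    {j : Z → X} (hj : J.IsBigOpen (Cm n) j) {f : Z → Y}
    (hf : ContMDiff 𝓘(ℂ, Cm n) 𝓘(ℂ, Cm p) ω f) {𝒢 : Set (Set Y)}
    (h𝒢 : J.IsDivisorial (Cm n) (Cm p) f 𝒢) {m : ℕ} {k : Set Y → ℕ}
    (hk : ∀ G, (k G : ℝ) ≤ m * J.orbBase' (Cm n) (Cm p) f 0 G) (hkG : ∀ G, k G ≠ 0 → G ∈ 𝒢)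
    {σ₀ σ₁ : Y → ℂ}
    (hσ₀ : J.IsSection (Cm p) (fun (D : Set Y) z g => J.IsLocalEq (Cm p) D g z) m k σ₀)
    (hσ₁ : J.IsSection (Cm p) (fun (D : Set Y) z g => J.IsLocalEq (Cm p) D g z) m k σ₁)
    {z₂ : Z} (hz₂ : f z₂ ∉ ⋃₀ 𝒢) (hsub : Function.Surjective (dM (Cm n) (Cm p) f z₂))
    (h0 : σ₀ (f z₂) ≠ 0) {e : Chart n X} (he : At e (j z₂)) (hr : j z₂ ∈ R) {ξ : Cm n}
    (hξ : ∀ i, ∑ l, (dV (Cm n) (fun z => e (j z)) z₂ ξ) l * θ e (e (j z₂)) l i = 0) :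
    dif (Cm n) (fun z => σ₁ (f z) / σ₀ (f z)) z₂ ξ = 0 := by
  have hΩ := dense_good hj hf h𝒢
  obtain ⟨q, T, hT0, hTσ⟩ := hT n p X Z Y j hj f hf 𝒢 h𝒢 m k hk hkG
  obtain ⟨τ₀, hτ₀, hτ₀e⟩ := hTσ σ₀ hσ₀
  obtain ⟨τ₁, hτ₁, hτ₁e⟩ := hTσ σ₁ hσ₁
  have hcont : ∀ {τ : Ten n q X}, IsTen q 0 τ → ∀ {e : Chart n X} {x : X}, At e x → ∀ I,
      ContinuousAt (fun y => τ e (e y) I) x := by
    intro τ hτ e x h I
    exact ContinuousAt.comp (g := fun z => τ e z I) (hτ.1 e x h I).continuousAt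
      (e.continuousAt h.2)
  have hprop : ∀ e x, At e x → ∀ I J, τ₀ e (e x) I * τ₁ e (e x) J =
      τ₀ e (e x) J * τ₁ e (e x) I := by
    intro e x h I J
    refine eq_of_dense (x := x) (g := fun y => τ₀ e (e y) I * τ₁ e (e y) J)
      (h := fun y => τ₀ e (e y) J * τ₁ e (e y) I) hΩ
      ((hcont hτ₀ h I).mul (hcont hτ₁ h J)) ((hcont hτ₀ h J).mul (hcont hτ₁ h I)) ?_
    filter_upwards [e.open_source.mem_nhds h.2] with y hy hyΩ
    obtain ⟨z, rfl, hz⟩ := hyΩ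
    rw [hτ₀e e z ⟨h.1, hy⟩ hz, hτ₀e e z ⟨h.1, hy⟩ hz, hτ₁e e z ⟨h.1, hy⟩ hz,
      hτ₁e e z ⟨h.1, hy⟩ hz]
    ring
  obtain ⟨I, hI⟩ := hT0 e z₂ he hsub
  have hI0 : τ₀ e (e (j z₂)) I ≠ 0 := by
    rw [hτ₀e e z₂ he hz₂]
    exact mul_ne_zero h0 hI
  have h1 := hX q τ₀ τ₁ hτ₀ hτ₁ hprop e (j z₂) he hr I hI0 _ hξ
  have hjh : ∀ z, HolM (Cm n) (Cm n) j z := fun z => hj.1 z
  have hfc : Continuous f := hf.continuous
  have hjc : Continuous j := hj.1.continuous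
  have h𝒢c : IsClosed (⋃₀ 𝒢) := by
    rw [sUnion_eq_biUnion]
    exact h𝒢.1.isClosed_biUnion fun G hG => (h𝒢.2.1 G hG).1
  have h2 : (fun z => σ₁ (f z) / σ₀ (f z)) =ᶠ[𝓝 z₂]
      fun z => τ₁ e (e (j z)) I / τ₀ e (e (j z)) I := by
    have h3 : ∀ᶠ z in 𝓝 z₂, τ₀ e (e (j z)) I ≠ 0 :=
      (ContinuousAt.comp (g := fun y => τ₀ e (e y) I) (f := j) (hcont hτ₀ he I)
        hjc.continuousAt).eventually_ne hI0
    filter_upwards [h3, (e.open_source.preimage hjc).mem_nhds he.2,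
      (h𝒢c.isOpen_compl.preimage hfc).mem_nhds hz₂] with z h4 h5 h6
    rw [hτ₀e e z ⟨he.1, h5⟩ h6] at h4
    rw [hτ₀e e z ⟨he.1, h5⟩ h6, hτ₁e e z ⟨he.1, h5⟩ h6,
      mul_div_mul_right _ _ (right_ne_zero_of_mul h4)]
  have h3 : dif (Cm n) (fun z => σ₁ (f z) / σ₀ (f z)) z₂ =
      dif (Cm n) (fun z => τ₁ e (e (j z)) I / τ₀ e (e (j z)) I) z₂ := dV_congr h2
  have h4 : ContDiffAt ℂ ω (fun z => τ₁ e z I / τ₀ e z I) (e (j z₂)) := by
    have h5 : ContDiffAt ℂ ω (fun z => τ₁ e z I) (e (j z₂)) := (hτ₁.1 e _ he I).contDiffAt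
    have h6 : ContDiffAt ℂ ω (fun z => τ₀ e z I) (e (j z₂)) := (hτ₀.1 e _ he I).contDiffAt
    exact h5.div h6 hI0
  have h5 := dV_comp_contDiff (G := fun z => τ₁ e z I / τ₀ e z I) (v := fun z => e (j z)) h4
    (holV_ej hjh he)
  rw [h3, dif_eq_dV, h5]
  exact h1

end Good

/-- the Kodaira dimension is computed by the sections `S` -/
theorem dat_kod (hT : TensorPart) {n : ℕ} {X : Type}
    [TopologicalSpace X] [ChartedSpace (Cm n) X] [IsManifold 𝓘(ℂ, Cm n) ω X] [T2Space X]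
    [CompactSpace X] [ConnectedSpace X] {m N : ℕ} {S : Fin N → X → ℂ}
    {θ : Chart n X → Cm n → Matrix (Fin n) (Fin n) ℂ} {R : Set X} (hD : Dat n m S θ R) {m₁ j : ℕ}
    {t : Fin (j + 1) → X → ℂ} (ht : ∀ b, IsPluri (n := n) m₁ (t b))
    (hne : (Ind (n := n) 0 t).Nonempty) :
    ∃ (x : X) (b₀ : Fin N) (c : Fin j → Fin N), S b₀ x ≠ 0 ∧
      LinearIndependent ℂ fun b => al (n := n) S b₀ x (c b) := by
  have hod := ind_open_dense (n := n) (κ := 0) (s := t)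
    (by simp) (fun C hC => (zero_poles C hC).elim) ht hne
  obtain ⟨x, hxR, hxI⟩ := hod.2.inter_open_nonempty R hD.op hD.de.nonempty
  obtain ⟨b₀, h0⟩ := hD.ne x hxR
  have he : At (chartAt (Cm n) x) x := ⟨chart_mem_atlas (Cm n) x, mem_chart_source (Cm n) x⟩
  have hkey : ∀ v, (∀ b, al (n := n) S b₀ x b v = 0) → ∀ b : Fin j,
      dif (Cm n) (fun w => t b.succ w / t 0 w) x v = 0 := by
    intro v hv b
    refine sections_const' (Z := X) (Y := X) (j := id) (f := id) (𝒢 := ∅) (m := m₁) (k := 0)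
      (σ₀ := t 0) (σ₁ := t b.succ) (z₂ := x) (e := chartAt (Cm n) x) hT hD.const
      (isBigOpen_id n X) contMDiff_id (isDivisorial_id n X) ?_ (fun G hG => (hG rfl).elim)
      (ht 0) (ht b.succ) ?_ ?_ hxI.2.1 he hxR ?_
    · intro G
      simp only [Pi.zero_apply, Nat.cast_zero]
      exact mul_nonneg (Nat.cast_nonneg _) (orbBase'_nonneg G)
    · simp
    · intro w
      refine ⟨w, ?_⟩
      show mfderiv 𝓘(ℂ, Cm n) 𝓘(ℂ, Cm n) id x w = w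
      rw [mfderiv_id]
      rfl
    · refine (hD.ker _ _ he b₀ h0 _).2 fun b => ?_
      rw [← hv b, al_apply hD.sec he h0 b v]
      rfl
  have h1 := li_card_le (α := al (n := n) S b₀ x) hkey hxI.2.2
  rw [Fintype.card_fin] at h1
  obtain ⟨c, hc⟩ := exists_li_sub h1
  exact ⟨x, b₀, c, h0, hc⟩

/-- **Main part**, abstract form. -/
theorem main_abs (hT : TensorPart) {n p d : ℕ} {X Z Y F : Type}
    [TopologicalSpace X] [T2Space X] [CompactSpace X] [ConnectedSpace X]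
    [ChartedSpace (Cm n) X] [IsManifold 𝓘(ℂ, Cm n) ω X]
    [TopologicalSpace Z] [ChartedSpace (Cm n) Z] [IsManifold 𝓘(ℂ, Cm n) ω Z]
    [TopologicalSpace Y] [T2Space Y] [ConnectedSpace Y]
    [ChartedSpace (Cm p) Y] [IsManifold 𝓘(ℂ, Cm p) ω Y]
    [TopologicalSpace F] [T2Space F] [CompactSpace F] [ConnectedSpace F]
    [ChartedSpace (Cm d) F] [IsManifold 𝓘(ℂ, Cm d) ω F]
    {m N : ℕ} {s : Fin N → X → ℂ} {θ : Chart n X → Cm n → Matrix (Fin n) (Fin n) ℂ} {R : Set X}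
    (hD : Dat n m s θ R)
    {j : Z → X} (hj : J.IsBigOpen (Cm n) j) {f : Z → Y}
    (hf : ContMDiff 𝓘(ℂ, Cm n) 𝓘(ℂ, Cm p) ω f)
    {𝒢 : Set (Set Y)} (h𝒢 : J.IsDivisorial (Cm n) (Cm p) f 𝒢)
    (hbase : ∀ G, J.orbBase' (Cm n) (Cm p) f 0 G ≠ 0 → G ∈ 𝒢)
    {i : F → Z} (hi : H713.IsSmoothFibre (Cm n) (Cm p) (Cm d) f i)
    {G₀ : F → ℂ} (hG₀ : ∀ t, G₀ t ≠ 0)
    {θF : Chart d F → Cm d → Matrix (Fin d) (Fin d) ℂ} {RF : Set F}
    (hDF : Dat d m (fun b t => s b (j (i t)) * G₀ t) θF RF) :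
    J.kod (Cm d) (fun (C : Set F) x g => J.IsLocalEq (Cm d) C g x) 0 +
      J.kod (Cm p) (fun (G : Set Y) y g => J.IsLocalEq (Cm p) G g y)
        (J.orbBase' (Cm n) (Cm p) f 0) ≤
      J.kod (Cm n) (fun (D : Set X) x g => J.IsLocalEq (Cm n) D g x) 0 := by
  classical
  rw [JB.kod_eq, JB.kod_eq, JB.kod_eq]
  refine kod_add_le fun j₁ j₂ h1 h2 => ?_
  obtain ⟨m₁, k₁, t, t₀, hm₁, hk₁, ht, -, ht0, htl⟩ := h1
  obtain ⟨m₂, k, σ, y₀, hm₂, hk, hσ, hky₀, hσ0, hσl⟩ := h2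
  have hm := hD.pos
  have hs := hD.sec
  have hker := hD.ker
  -- the boundary of `Y`
  have hkG : ∀ G, k G ≠ 0 → G ∈ 𝒢 := by
    intro G hG
    refine hbase G fun h0 => ?_
    have h3 := hk G
    rw [h0, mul_zero] at h3
    exact hG (by exact_mod_cast h3)
  have hkfin : {G | k G ≠ 0}.Finite := h𝒢.1.subset fun G hG => hkG G hG
  have hkpr : ∀ G, k G ≠ 0 → IsPrimeDivisor (Cm p) G := fun G hG => h𝒢.2.1 G (hkG G hG)
  have hy₀ : ∀ G, k G ≠ 0 → y₀ ∉ G := by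
    intro G hG hy
    obtain ⟨g, hg, hg0⟩ := hky₀ G hG
    exact hg0 (IsLocalEq.mem_iff hg |>.1 hy)
  have hodY := ind_open_dense (n := p) (κ := k) (s := σ) hkfin hkpr hσ ⟨y₀, hy₀, hσ0, hσl⟩
  have h𝒢od := dense_compl_finite (X := Y) h𝒢.1 (fun G hG => (h𝒢.2.1 G hG).1) (fun G hG => by
    rw [dense_iff_inter_open]
    intro U hU hUne
    obtain ⟨x, hxU, hxD⟩ := IsLocalEq.exists_notMem (h𝒢.2.1 G hG).2.1 hU hUne
    exact ⟨x, hxU, hxD⟩)
  -- the fibre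
  have hk₁0 : k₁ = 0 := by
    funext C
    have h3 := hk₁ C
    simp only [Pi.zero_apply, mul_zero, Nat.cast_eq_zero] at h3
    exact h3
  subst hk₁0
  have hjh : ∀ z, HolM (Cm n) (Cm n) j z := fun z => hj.1 z
  have hfh : ∀ z, HolM (Cm n) (Cm p) f z := fun z => hf z
  have hih : ∀ z, HolM (Cm d) (Cm n) i z := fun z => hi.hol z
  set sF : Fin N → F → ℂ := fun b t => s b (j (i t)) * G₀ t with hsF
  have hsF0 : ∀ b t, sF b t ≠ 0 ↔ s b (j (i t)) ≠ 0 := by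
    intro b t
    simp only [hsF]
    constructor
    · intro h
      exact left_ne_zero_of_mul h
    · intro h
      exact mul_ne_zero h (hG₀ _)
  have hsFr : ∀ b b' t, sF b t / sF b' t = s b (j (i t)) / s b' (j (i t)) := by
    intro b b' t
    simp only [hsF]
    rw [mul_div_mul_right _ _ (hG₀ _)]
  obtain ⟨t₃, b₀, c, hb₀, hcl⟩ := dat_kod hT hDF ht
    ⟨t₀, fun C hC => (zero_poles C hC).elim, ht0, htl⟩
  -- the point `z₁`
  set z₁ : Z := i t₃ with hz₁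
  have hb₀' : s b₀ (j z₁) ≠ 0 := (hsF0 b₀ t₃).1 hb₀
  have hrat : ∀ b b' x, s b' x ≠ 0 → HolV (Cm n) (fun w => s b w / s b' w) x := fun b b' x h =>
    (secAt_pluri (hs b) x).div_holV (secAt_pluri (hs b') x) h
  set u : Fin j₁ → Z → ℂ := fun b z => s (c b) (j z) / s b₀ (j z) with hu
  have huh : ∀ b z, s b₀ (j z) ≠ 0 → HolV (Cm n) (u b) z := fun b z h =>
    HolV.comp (h := fun w => s (c b) w / s b₀ w) (hrat (c b) b₀ (j z) h) (hjh z)
  set ψ := chartAt (Cm p) (f z₁) with hψ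
  have hy₁ : f z₁ ∈ ψ.source := mem_chart_source (Cm p) (f z₁)
  have hψf : ∀ z, f z ∈ ψ.source → HolV (Cm n) (fun z => ψ (f z)) z := fun z h =>
    HolV.comp (h := (ψ : Y → Cm p)) (HolV.chart h) (hfh z)
  have hψd : ∀ z, f z ∈ ψ.source → ∀ ξ, dV (Cm n) (fun z => ψ (f z)) z ξ =
      dV (Cm p) (ψ : Y → Cm p) (f z) (dM (Cm n) (Cm p) f z ξ) := by
    intro z h ξ
    have h3 := dV_comp (h := (ψ : Y → Cm p)) (HolV.chart h) (hfh z)
    exact congrArg (fun T : Cm n →L[ℂ] Cm p => T ξ) h3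
  set h : Fin j₁ ⊕ Fin p → Z → ℂ := Sum.elim u fun a z => ψ (f z) a with hh
  have hhol : ∀ l, HolV (Cm n) (h l) z₁ := by
    rintro (b | a)
    · exact huh b z₁ hb₀'
    · exact (hψf z₁ hy₁).eval a
  -- linear independence at `z₁`
  have hli₁ : LinearIndependent ℂ (fun l => dif (Cm n) (h l) z₁) := by
    refine JB.linearIndependent_of_surjective fun y => ?_
    obtain ⟨η₀, hη₀⟩ := surj_of_isUnit (isUnit_dV_chart (E := Cm p) hy₁) fun a => y (Sum.inr a)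
    obtain ⟨ξ₀, hξ₀⟩ : ∃ ξ₀ : Cm n, dM (Cm n) (Cm p) f z₁ ξ₀ = η₀ := hi.submersive t₃ η₀
    have hcs := JB.surjective_of_linearIndependent hcl
    obtain ⟨ζ, hζ⟩ := hcs fun b => y (Sum.inl b) - dif (Cm n) (u b) z₁ ξ₀
    refine ⟨ξ₀ + dM (Cm d) (Cm n) i t₃ ζ, ?_⟩
    funext l
    rcases l with b | a
    · show dif (Cm n) (u b) z₁ (ξ₀ + dM (Cm d) (Cm n) i t₃ ζ) = y (Sum.inl b)
      rw [map_add]
      have h3 : dif (Cm d) (fun t => u b (i t)) t₃ =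
          (dif (Cm n) (u b) (i t₃)).comp (dM (Cm d) (Cm n) i t₃) :=
        dif_comp (huh b z₁ hb₀') (hih t₃)
      have h4 : (fun t => u b (i t)) = fun t => sF (c b) t / sF b₀ t := by
        funext t
        exact (hsFr (c b) b₀ t).symm
      have h5 := congrArg (fun T : Cm d →L[ℂ] ℂ => T ζ) h3
      simp only [ContinuousLinearMap.comp_apply] at h5
      rw [← h5, h4]
      have h6 := congrFun hζ b
      have h7 : dif (Cm d) (fun t => sF (c b) t / sF b₀ t) t₃ ζ =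
        y (Sum.inl b) - dif (Cm n) (u b) z₁ ξ₀ := h6
      rw [h7]
      ring
    · show dif (Cm n) (fun z => ψ (f z) a) z₁ (ξ₀ + dM (Cm d) (Cm n) i t₃ ζ) = y (Sum.inr a)
      have h3 : dif (Cm n) (fun z => ψ (f z) a) z₁ (ξ₀ + dM (Cm d) (Cm n) i t₃ ζ) =
          dV (Cm n) (fun z => ψ (f z)) z₁ (ξ₀ + dM (Cm d) (Cm n) i t₃ ζ) a :=
        (dV_apply (hψf z₁ hy₁) a _).symm
      rw [h3, hψd z₁ hy₁, map_add]
      have h4 : dM (Cm n) (Cm p) f z₁ (dM (Cm d) (Cm n) i t₃ ζ) = 0 := by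
        have h5 := mfderiv_comp (I := 𝓘(ℂ, Cm d)) (I' := 𝓘(ℂ, Cm n)) (I'' := 𝓘(ℂ, Cm p))
          (g := f) (f := i) t₃ ((hf (i t₃)).mdifferentiableAt (by simp))
          ((hi.hol t₃).mdifferentiableAt (by simp))
        have h6 : (f ∘ i) = fun _ => f (i t₃) := by
          funext t
          exact hi.const t t₃
        rw [h6, mfderiv_const] at h5
        exact (congrArg (fun T : Cm d →L[ℂ] Cm p => T ζ) h5).symm
      have h5 : dM (Cm n) (Cm p) f z₁ ξ₀ = η₀ := hξ₀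
      rw [h4, h5, add_zero, hη₀]
  -- the open set
  have hev : ∀ᶠ z in 𝓝 z₁, LinearIndependent ℂ (fun l => dif (Cm n) (h l) z) ∧
      s b₀ (j z) ≠ 0 ∧ f z ∈ ψ.source := by
    filter_upwards [linearIndependent_dif_eventually hhol hli₁,
      (hjh z₁).continuousAt.eventually ((secAt_pluri (hs b₀) (j z₁)).ev_ne hb₀'),
      (hfh z₁).continuousAt.eventually (ψ.open_source.mem_nhds hy₁)] with z h3 h4 h5
    exact ⟨h3, h4, h5⟩
  obtain ⟨O, hO, hOo, hzO⟩ := eventually_nhds_iff.1 hev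
  have hjRd : Dense (j ⁻¹' R) := hD.de.preimage hj.2.1.isOpenMap
  obtain ⟨z', hz'O, hz'R⟩ := hjRd.inter_open_nonempty O hOo ⟨z₁, hzO⟩
  have hsurj : ∀ z ∈ O, ∀ (a : Fin j₁ → ℂ) (η : Cm p), ∃ ξ, (∀ b, dif (Cm n) (u b) z ξ = a b) ∧
      dM (Cm n) (Cm p) f z ξ = η := by
    intro z hz a η
    obtain ⟨h3, -, h5⟩ := hO z hz
    obtain ⟨ξ, hξ⟩ := JB.surjective_of_linearIndependent h3
      (Sum.elim a (dV (Cm p) (ψ : Y → Cm p) (f z) η))
    refine ⟨ξ, fun b => congrFun hξ (Sum.inl b), ?_⟩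
    have h6 : dV (Cm n) (fun z => ψ (f z)) z ξ = dV (Cm p) (ψ : Y → Cm p) (f z) η := by
      funext l
      rw [dV_apply (hψf z h5) l]
      exact congrFun hξ (Sum.inr l)
    rw [hψd z h5] at h6
    obtain ⟨A, hA⟩ := dV_chart_leftInv (E := Cm p) h5
    have h7 : ∀ v, A (dV (Cm p) (ψ : Y → Cm p) (f z) v) = v := fun v =>
      congrArg (fun T : Cm p →L[ℂ] Cm p => T v) hA
    rw [← h7 (dM (Cm n) (Cm p) f z ξ), h6, h7]
  have hsub : ∀ z ∈ O, Function.Surjective (dM (Cm n) (Cm p) f z) := fun z hz η => by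
    obtain ⟨ξ, -, h3⟩ := hsurj z hz 0 η
    exact ⟨ξ, h3⟩
  have hO' : O ∩ j ⁻¹' R ∈ 𝓝 z' := (hOo.inter (hD.op.preimage hj.1.continuous)).mem_nhds
    ⟨hz'O, hz'R⟩
  have himg : f '' (O ∩ j ⁻¹' R) ∈ 𝓝 (f z') := nhds_le_map (hfh z') (hsub z' hz'O) (image_mem_map hO')
  have hYd : Dense (Ind (n := p) k σ ∩ {y | ∀ G ∈ 𝒢, y ∉ G}) :=
    hodY.2.inter_of_isOpen_left h𝒢od.2 hodY.1
  obtain ⟨y₂, hy₂I, hy₂⟩ := hYd.inter_nhds_nonempty himg
  obtain ⟨z₂, ⟨hz₂O, hz₂R⟩, rfl⟩ := hy₂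
  obtain ⟨⟨hkz, hσz, hσlz⟩, h𝒢z⟩ := hy₂I
  have hb₂ : s b₀ (j z₂) ≠ 0 := (hO z₂ hz₂O).2.1
  have he : At (chartAt (Cm n) (j z₂)) (j z₂) :=
    ⟨chart_mem_atlas (Cm n) (j z₂), mem_chart_source (Cm n) (j z₂)⟩
  -- the sections of `m₂ (K_Y + B)` are constant along `ker θ`
  have hσh : ∀ b : Fin j₂, HolV (Cm p) (fun w => σ b.succ w / σ 0 w) (f z₂) := fun b =>
    (secAt_of hkpr (hσ b.succ) hkz).div_holV (secAt_of hkpr (hσ 0) hkz) hσz
  set α : Fin N → (Cm n →L[ℂ] ℂ) := fun b => dif (Cm n) (fun z => s b (j z) / s b₀ (j z)) z₂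
    with hα
  have hαj : ∀ b, α b = (al (n := n) s b₀ (j z₂) b).comp (dM (Cm n) (Cm n) j z₂) := fun b =>
    dif_comp (g := fun w => s b w / s b₀ w) (hrat b b₀ (j z₂) hb₂) (hjh z₂)
  have hkey : ∀ v, (∀ b, α b v = 0) → ∀ b : Fin j₂,
      dif (Cm n) (fun z => σ b.succ (f z) / σ 0 (f z)) z₂ v = 0 := by
    intro v hv b
    refine sections_const' (j := j) (f := f) (𝒢 := 𝒢) (m := m₂) (k := k)
      (σ₀ := σ 0) (σ₁ := σ b.succ) (z₂ := z₂) (e := chartAt (Cm n) (j z₂)) hT hD.const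
      hj hf h𝒢 (fun G => (hk G).le) hkG (hσ 0) (hσ b.succ) ?_ (hsub z₂ hz₂O) hσz he
      hz₂R ?_
    · rintro ⟨G, hG, hGz⟩
      exact h𝒢z G hG hGz
    · refine (hker _ _ he b₀ hb₂ _).2 fun b => ?_
      have h3 := hv b
      rw [hαj] at h3
      have h4 := al_apply hs he hb₂ b (dM (Cm n) (Cm n) j z₂ v)
      have h5 : al (n := n) s b₀ (j z₂) b (dM (Cm n) (Cm n) j z₂ v) = 0 := h3
      rw [h5] at h4
      have h6 := dV_comp (h := (chartAt (Cm n) (j z₂) : X → Cm n)) (holV_at he) (hjh z₂)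
      have h7 := congrArg (fun T : Cm n →L[ℂ] Cm n => T v) h6
      simp only [ContinuousLinearMap.comp_apply] at h7
      rw [h7]
      exact h4.symm
  -- the linearly independent family
  set β : Fin j₁ ⊕ Fin j₂ → (Cm n →L[ℂ] ℂ) := Sum.elim (fun b => dif (Cm n) (u b) z₂)
    fun b => dif (Cm n) (fun z => σ b.succ (f z) / σ 0 (f z)) z₂ with hβ
  have hβl : LinearIndependent ℂ β := by
    refine JB.linearIndependent_of_surjective fun y => ?_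
    obtain ⟨η, hη⟩ := JB.surjective_of_linearIndependent hσlz fun b => y (Sum.inr b)
    obtain ⟨ξ, hξ1, hξ2⟩ := hsurj z₂ hz₂O (fun b => y (Sum.inl b)) η
    refine ⟨ξ, ?_⟩
    funext l
    rcases l with b | b
    · exact hξ1 b
    · have h3 : dif (Cm n) (fun z => σ b.succ (f z) / σ 0 (f z)) z₂ =
          (dif (Cm p) (fun w => σ b.succ w / σ 0 w) (f z₂)).comp (dM (Cm n) (Cm p) f z₂) :=
        dif_comp (g := fun w => σ b.succ w / σ 0 w) (hσh b) (hfh z₂)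
      show dif (Cm n) (fun z => σ b.succ (f z) / σ 0 (f z)) z₂ ξ = y (Sum.inr b)
      rw [h3, ContinuousLinearMap.comp_apply, hξ2]
      exact congrFun hη b
  have h3 := li_card_le (α := α) (β := β) (fun v hv => by
    rintro (b | b)
    · exact hv (c b)
    · exact hkey v hv b) hβl
  have h4 : α = fun b => (al (n := n) s b₀ (j z₂) b).comp (dM (Cm n) (Cm n) j z₂) := funext hαj
  rw [Fintype.card_sum, Fintype.card_fin, Fintype.card_fin, h4, finrank_span_comp _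
    (surj_of_isUnit (isUnit_of_det_ne (det_ne_of_inj (hj.2.2.1 z₂))))] at h3
  obtain ⟨c', hc'⟩ := exists_li_sub h3
  refine ⟨m, 0, Fin.cons (s b₀) fun b => s (c' b), j z₂, hm, by simp, ?_, by simp, hb₂, hc'⟩
  intro b
  refine Fin.cases ?_ (fun b => ?_) b
  · exact hs b₀
  · exact hs (c' b)

end Vale.Agent.P281.H167.GM
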