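import Vale.Agent.P281.H167.GM.M1
import Vale.Agent.P281.H167.GM.Iface
import Vale.Agent.P281.H368.GM.Dense

/-! P281, theorem GM, main part: the data `(S, θ, R)` from the blocks. -/

open scoped Manifold ContDiff Topology ComplexOrder
open Set Filter Metric Vale.Agent.P281.J Vale.Agent.P272.K

noncomputable section

namespace Vale.Agent.P281.H167.GM

open Vale.Agent.P281 Vale.Agent.P281.MF Vale.Agent.P281.ISO
open Vale.Agent.P299
open Vale.Agent.P281.H713.SA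
open Vale.Agent.P272.K.INT (IsClosedForm)

set_option linter.unusedSectionVars false

section Rank

variable {n : ℕ} {X : Type} [TopologicalSpace X] [ChartedSpace (Cm n) X]
  [IsManifold 𝓘(ℂ, Cm n) ω X]

variable {m N : ℕ} {s : Fin N → X → ℂ} (hs : ∀ b, IsPluri (n := n) m (s b))
  {θ : D.FormM n X}
  (hker : ∀ e x, At e x → ∀ b₀, s b₀ x ≠ 0 → ∀ v : Cm n,
      (∀ j, ∑ i, v i * θ e (e x) i j = 0) ↔
        ∀ b, fderiv ℂ (fun z => s b (e.symm z) / s b₀ (e.symm z)) (e x) v = 0)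

include hs hker in
theorem rank_eq' {e : Chart n X} {x : X} (he : At e x) {b₀ : Fin N} (h0 : s b₀ x ≠ 0) :
    (θ e (e x)).rank = Module.finrank ℂ (Submodule.span ℂ (range (al (n := n) s b₀ x))) := by
  have h1 : Submodule.span ℂ (range (mcov (θ e (e x)))) = Submodule.span ℂ (range fun b =>
      fderiv ℂ (fun z => s b (e.symm z) / s b₀ (e.symm z)) (e x)) := by
    apply le_antisymm
    · refine span_le_of_ker fun v hv j => ?_
      rw [mcov_apply]
      exact (hker e x he b₀ h0 v).2 hv j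
    · refine span_le_of_ker fun v hv b => ?_
      refine (hker e x he b₀ h0 v).1 (fun j => ?_) b
      rw [← mcov_apply]
      exact hv j
  have h2 : al (n := n) s b₀ x = fun b =>
      (fderiv ℂ (fun z => s b (e.symm z) / s b₀ (e.symm z)) (e x)).comp
        (dV (Cm n) (e : X → Cm n) x) := by
    funext b
    ext ξ
    exact al_apply hs he h0 b ξ
  rw [← finrank_mcov, h1, h2, finrank_span_comp _ (surj_of_isUnit (isUnit_at he))]

/-- the rank is lower semicontinuous -/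
theorem rank_lsc (hθ : ∀ e x, At e x → ∀ i j, ContDiffAt ℝ ∞ (fun z => θ e z i j) (e x))
    {e : Chart n X} {x : X} (he : At e x) :
    ∀ᶠ y in 𝓝 x, (θ e (e x)).rank ≤ (θ e (e y)).rank := by
  obtain ⟨c, hc⟩ := exists_li_sub (α := mcov (θ e (e x))) (r := (θ e (e x)).rank)
    (finrank_mcov _).ge
  have hcont : ContinuousAt (fun y => fun b => mcov (θ e (e y)) (c b)) x := by
    refine continuousAt_pi.2 fun b => ?_
    show ContinuousAt (fun y => ∑ i, θ e (e y) i (c b) •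
      ContinuousLinearMap.proj (R := ℂ) (φ := fun _ : Fin n => ℂ) i) x
    refine tendsto_finsetSum _ fun i _ => ?_
    have h1 : ContinuousAt (fun y => θ e (e y) i (c b)) x :=
      ContinuousAt.comp (g := fun z => θ e z i (c b)) (hθ e x he i (c b)).continuousAt
        (e.continuousAt he.2)
    exact h1.smul continuousAt_const
  have hop := (isOpen_setOf_linearIndependent (𝕜 := ℂ) (ι := Fin (θ e (e x)).rank)
    (E := Cm n →L[ℂ] ℂ)).mem_nhds hc
  filter_upwards [hcont.preimage_mem_nhds hop] with y hy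
  have h2 := li_card_le (α := mcov (θ e (e y)))
    (β := fun b : Fin (θ e (e x)).rank => mcov (θ e (e y)) (c b)) (fun v hv b => hv (c b)) hy
  rw [Fintype.card_fin, finrank_mcov] at h2
  exact h2

include hs hker in
/-- the set of the points where the rank is maximal -/
theorem exists_max' [ConnectedSpace X]
    (hθ : ∀ e x, At e x → ∀ i j, ContDiffAt ℝ ∞ (fun z => θ e z i j) (e x))
    (hne : ∃ b x, s b x ≠ 0) :
    ∃ (ν : ℕ) (R : Set X), IsOpen R ∧ Dense R ∧ (∀ x ∈ R, ∃ b, s b x ≠ 0) ∧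
      (∀ e x, At e x → (θ e (e x)).rank ≤ ν) ∧
      ∀ e x, At e x → x ∈ R → (θ e (e x)).rank = ν := by
  classical
  set P : ℕ → Prop := fun r => ∃ e x, At (n := n) (X := X) e x ∧ (θ e (e x)).rank = r
    with hP
  have hPn : ∀ r, P r → r ≤ n := by
    rintro r ⟨e, x, -, rfl⟩
    simpa using Matrix.rank_le_card_width (θ e (e x))
  obtain ⟨x₀⟩ := (inferInstance : Nonempty X)
  have hPex : P (θ (chartAt (Cm n) x₀) (chartAt (Cm n) x₀ x₀)).rank :=
    ⟨_, _, ⟨chart_mem_atlas (Cm n) x₀, mem_chart_source (Cm n) x₀⟩, rfl⟩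
  set ν := Nat.findGreatest P n with hν
  have hPν : P ν := Nat.findGreatest_spec (hPn _ hPex) hPex
  have hmax : ∀ e x, At (n := n) (X := X) e x → (θ e (e x)).rank ≤ ν := fun e x h =>
    Nat.le_findGreatest (hPn _ ⟨e, x, h, rfl⟩) ⟨e, x, h, rfl⟩
  obtain ⟨e, x₁, he₁, hr₁⟩ := hPν
  -- move to a point where `s` does not vanish
  obtain ⟨x, ⟨hx1, hx2⟩, b₀, h0⟩ := mem_closure_iff_nhds.1 (H368.GM.dense_ne hs hne x₁) _
    (inter_mem (rank_lsc hθ he₁) (e.open_source.mem_nhds he₁.2))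
  have he : At e x := ⟨he₁.1, hx2⟩
  have hr : (θ e (e x)).rank = ν := le_antisymm (hmax e x he) (hr₁ ▸ hx1)
  rw [rank_eq' hs hker he h0] at hr
  obtain ⟨c, hc⟩ := exists_li_sub (α := al (n := n) s b₀ x) (r := ν) hr.ge
  set s' : Fin (ν + 1) → X → ℂ := Fin.cons (s b₀) fun b => s (c b) with hs'
  have hsec : ∀ b, IsPluri (n := n) m (s' b) := by
    intro b
    refine Fin.cases ?_ (fun b => ?_) b
    · exact hs b₀
    · exact hs (c b)
  have hod := ind_open_dense (n := n) (κ := 0) (s := s')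
    (by simp) (fun C hC => (zero_poles C hC).elim) hsec
    ⟨x, fun C hC => (zero_poles C hC).elim, h0, hc⟩
  refine ⟨ν, _, hod.1, hod.2, fun x' hx' => ⟨b₀, hx'.2.1⟩, hmax, ?_⟩
  rintro e' x' he' ⟨-, h1, h2⟩
  refine le_antisymm (hmax e' x' he') ?_
  rw [rank_eq' hs hker he' (b₀ := b₀) h1]
  have h3 := li_card_le (α := al (n := n) s b₀ x') (β := fun b : Fin ν => al (n := n) s b₀ x' (c b))
    (fun v hv b => hv (c b)) h2
  simpa using h3

end Rank

section PosDef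

variable {n : ℕ} {X : Type} [TopologicalSpace X] [ChartedSpace (Cm n) X]
  [IsManifold 𝓘(ℂ, Cm n) ω X] {β : D.FormM n X}

/-- positive definiteness of `β` does not depend on the chart -/
theorem posDef_chart (hβ : IsForm β) (hpsd : ∀ e x, At e x → (β e (e x)).PosSemidef)
    {e e' : Chart n X} {x : X} (h : At e x) (h' : At e' x) (hp : (β e (e x)).PosDef) :
    (β e' (e' x)).PosDef := by
  rw [(hpsd e' x h').posDef_iff_det_ne_zero]
  intro h0
  have h1 := hβ e e' x h h'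
  have h2 : (β e (e x)).det ≠ 0 := (hpsd e x h).posDef_iff_det_ne_zero.1 hp
  rw [h1, Matrix.det_mul, Matrix.det_mul, h0, mul_zero, zero_mul] at h2
  exact h2 rfl

theorem isOpen_posDef (hβ : IsClosedForm β) (hpsd : ∀ e x, At e x → (β e (e x)).PosSemidef) :
    IsOpen {x : X | ∃ e, At e x ∧ (β e (e x)).PosDef} := by
  rw [isOpen_iff_mem_nhds]
  rintro x ⟨e, he, hp⟩
  have h1 : ContinuousAt (fun y => (β e (e y)).det) x := by
    refine ContinuousAt.comp (g := fun z => (β e z).det) ?_ (e.continuousAt he.2)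
    exact (contDiffAt_det (m := ∞) fun i j => hβ.smooth e x he i j).continuousAt
  filter_upwards [h1.eventually_ne ((hpsd e x he).posDef_iff_det_ne_zero.1 hp),
    e.open_source.mem_nhds he.2] with y hy hy'
  exact ⟨e, ⟨he.1, hy'⟩, (hpsd e y ⟨he.1, hy'⟩).posDef_iff_det_ne_zero.2 hy⟩

end PosDef

/-- **Data from the growth estimate.** -/
theorem exists_dat (hcore : CorePart) (hform : FormPart) {n : ℕ} {X : Type} [TopologicalSpace X]
    [T2Space X] [CompactSpace X] [ConnectedSpace X] [ChartedSpace (Cm n) X]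
    [IsManifold 𝓘(ℂ, Cm n) ω X] {χ : D.FormM n X} (hχ : IsKahler χ) {m N : ℕ}
    {S : Fin N → X → ℂ} (hS : IsMoving n m S) {β : D.FormM n X} (hβ : IsClosedForm β)
    (hβ0 : ∀ e x, At e x → (β e (e x)).PosSemidef)
    (hβd : Dense {x : X | ∃ e, At e x ∧ (β e (e x)).PosDef})
    (hgrow : ∀ (φ : Chart n X → Cm n → ℝ) (_ : IsCanonicalMetric φ) (ρ : X → ℝ)
      (_ : SmoothFn (n := n) ρ)
      (_ : ∀ x, 0 ≤ ρ x) (_ : ∀ x, ρ x = 0 ↔ ∀ b, S b x = 0)
      (θ : D.FormM n X) (_ : IsClosedForm θ)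
      (_ : ∀ e x, At e x → (θ e (e x)).PosSemidef)
      (_ : ∀ e x, At e x → 0 < ρ x → θ e (e x) = cHess (phiD φ m ρ 0 e) (e x))
      (_ : ∀ e x, At e x →
        ρ x * Real.exp (m * φ e (e x)) = H223.nsq (H949.SA.coef m S e (e x)))
      (_ : ∀ e x, At e x → ∀ b₀, S b₀ x ≠ 0 → θ e (e x) = (((m : ℝ)⁻¹ : ℝ) : ℂ) • cHess (fun z =>
        Real.log (∑ b, ‖S b (e.symm z) / S b₀ (e.symm z)‖ ^ 2)) (e x))
      (_ : ∀ e x, At e x → ∀ b₀, S b₀ x ≠ 0 → ∀ v : Cm n,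
        (∀ j, ∑ i, v i * θ e (e x) i j = 0) ↔
          ∀ b, fderiv ℂ (fun z => S b (e.symm z) / S b₀ (e.symm z)) (e x) v = 0)
      (ν : ℕ) (_ : ∀ e x, At e x → (θ e (e x)).rank ≤ ν) (_ : ∃ e x, At e x ∧ (θ e (e x)).rank = ν),
      ∃ C₁ : ℝ, ∃ᶠ s : ℝ in atTop,
        mixX (addF β s θ) (fun e z => cHess (φ e) z) ≤ C₁ * s ^ ν / s) :
    ∃ θ R, Dat n m S θ R := by
  obtain ⟨φ, ρ, C, θ, hφ, hρ, hρ0, hρS, hcurv, hθ, hθ0, hθρ, hρe, hθS, hker⟩ :=
    hform n X χ hχ m N S hS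
  obtain ⟨ν, R₀, hR₀o, hR₀d, hR₀S, hmax, hR₀r⟩ := exists_max' hS.sec hker hθ.smooth hS.ne
  have hatt : ∃ e x, At e x ∧ (θ e (e x)).rank = ν := by
    obtain ⟨x, hx⟩ := hR₀d.nonempty
    have he : At (chartAt (Cm n) x) x := ⟨chart_mem_atlas (Cm n) x, mem_chart_source (Cm n) x⟩
    exact ⟨_, x, he, hR₀r _ x he hx⟩
  obtain ⟨C₁, hC₁⟩ := hgrow φ hφ ρ hρ hρ0 hρS θ hθ hθ0 hθρ hρe hθS hker ν hmax hatt
  refine ⟨θ, R₀ ∩ {x : X | ∃ e, At e x ∧ (β e (e x)).PosDef}, ?_⟩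
  refine ⟨hS.pos, hS.sec, hR₀o.inter (isOpen_posDef hβ hβ0),
    hR₀d.inter_of_isOpen_left hβd hR₀o, fun x hx => hR₀S x hx.1, hker, ?_⟩
  intro q τ0 τ1 hτ0 hτ1 hprop e x he hx I hI v hv
  obtain ⟨e', he', hp'⟩ := hx.2
  obtain ⟨b, hb⟩ := hR₀S x hx.1
  have hρx : 0 < ρ x := lt_of_le_of_ne (hρ0 x) fun h => hb ((hρS x).1 h.symm b)
  exact hcore n q X χ hχ φ hφ m hS.pos ρ hρ hρ0 C hcurv θ β hθ hβ hθ0 hβ0 ν hmax C₁ hC₁ τ0 τ1
    hτ0 hτ1 hprop e x he I hI hρx (posDef_chart hβ.form hβ0 he' he hp') (hR₀r e x he hx.1) v hv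

end Vale.Agent.P281.H167.GM
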