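import Vale.Agent.P281.H167.GM.M2
import Vale.Agent.P281.H167.SA.K

/-! P281, theorem GM, main part: the inequality from growth estimates on `X` and on the fibre. -/

open scoped Manifold ContDiff Topology ComplexOrder
open Set Filter Metric Vale.Agent.P281.J Vale.Agent.P272.K

noncomputable section

namespace Vale.Agent.P281.H167.GM

open Vale.Agent.P281 Vale.Agent.P281.MF Vale.Agent.P281.ISO
open Vale.Agent.P299
open Vale.Agent.P281.H713.SA
open Vale.Agent.P272.K.INT (IsClosedForm)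

set_option linter.unusedSectionVars false

/-- the growth condition: a closed form `β ≥ 0`, positive on a dense set, such that
`K · (β + s θ)^{n-1} = O(s^{ν-1})`, where `θ` is the form of the `S b` and `ν` its maximal rank -/
def HasGrowth (n : ℕ) {X : Type} [TopologicalSpace X] [T2Space X] [CompactSpace X]
    [ChartedSpace (Cm n) X] [IsManifold 𝓘(ℂ, Cm n) ω X] (m : ℕ) {N : ℕ}
    (S : Fin N → X → ℂ) : Prop :=
  ∃ β : D.FormM n X, IsClosedForm β ∧ (∀ e x, At e x → (β e (e x)).PosSemidef) ∧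
    Dense {x : X | ∃ e, At e x ∧ (β e (e x)).PosDef} ∧
    ∀ (φ : Chart n X → Cm n → ℝ) (_ : IsCanonicalMetric φ) (ρ : X → ℝ)
      (_ : SmoothFn (n := n) ρ)
      (_ : ∀ x, 0 ≤ ρ x) (_ : ∀ x, ρ x = 0 ↔ ∀ b, S b x = 0)
      (θ : D.FormM n X) (_ : IsClosedForm θ)
      (_ : ∀ e x, At e x → (θ e (e x)).PosSemidef)
      (_ : ∀ e x, At e x → 0 < ρ x → θ e (e x) = cHess (phiD φ m ρ 0 e) (e x))
      (_ : ∀ e x, At e x →
        ρ x * Real.exp (m * φ e (e x)) = H223.nsq (H949.SA.coef m S e (e x)))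
      (_ : ∀ e x, At e x → ∀ b₀, S b₀ x ≠ 0 → θ e (e x) = (((m : ℝ)⁻¹ : ℝ) : ℂ) • cHess (fun z =>
        Real.log (∑ b, ‖S b (e.symm z) / S b₀ (e.symm z)‖ ^ 2)) (e x))
      (_ : ∀ e x, At e x → ∀ b₀, S b₀ x ≠ 0 → ∀ v : Cm n,
        (∀ j, ∑ i, v i * θ e (e x) i j = 0) ↔
          ∀ b, fderiv ℂ (fun z => S b (e.symm z) / S b₀ (e.symm z)) (e x) v = 0)
      (ν : ℕ) (_ : ∀ e x, At e x → (θ e (e x)).rank ≤ ν) (_ : ∃ e x, At e x ∧ (θ e (e x)).rank = ν),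
      ∃ C₁ : ℝ, ∃ᶠ s : ℝ in atTop,
        mixX (addF β s θ) (fun e z => cHess (φ e) z) ≤ C₁ * s ^ ν / s

theorem exists_dat' (hcore : CorePart) (hform : FormPart) {n : ℕ} {X : Type} [TopologicalSpace X]
    [T2Space X] [CompactSpace X] [ConnectedSpace X] [ChartedSpace (Cm n) X]
    [IsManifold 𝓘(ℂ, Cm n) ω X] {χ : D.FormM n X} (hχ : IsKahler χ) {m N : ℕ}
    {S : Fin N → X → ℂ} (hS : IsMoving n m S) (hg : HasGrowth n m S) :
    ∃ θ R, Dat n m S θ R := by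
  obtain ⟨β, hβ, hβ0, hβd, hgrow⟩ := hg
  exact exists_dat hcore hform hχ hS hβ hβ0 hβd hgrow

/-- multiplication of the sections by a nowhere zero function -/
theorem isMoving_mul {n d m N : ℕ} {X F : Type} [TopologicalSpace X] [ChartedSpace (Cm n) X]
    [TopologicalSpace F] [ChartedSpace (Cm d) F] {S : Fin N → X → ℂ} (hS : IsMoving n m S)
    {g : F → X} (hg : ContMDiff 𝓘(ℂ, Cm d) 𝓘(ℂ, Cm n) ω g) {sF : Fin N → F → ℂ}
    (hsF : ∀ b, IsPluri (n := d) m (sF b)) {G : F → ℂ} (hG : ∀ t, G t ≠ 0)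
    (hsG : ∀ b t, sF b t = S b (g t) * G t) (hne : ∃ b t, S b (g t) ≠ 0) :
    IsMoving d m sF where
  pos := hS.pos
  sec := hsF
  princ x := by
    obtain ⟨b₀, hb₀⟩ := hS.princ (g x)
    refine ⟨b₀, fun b => ?_⟩
    obtain ⟨h, hh, hev⟩ := hb₀ b
    refine ⟨fun t => h (g t), ContMDiffAt.comp x (g := h) hh hg.contMDiffAt, ?_⟩
    filter_upwards [hg.continuous.continuousAt.eventually hev] with t ht
    rw [hsG, hsG, ht, mul_assoc]
  ne := by
    obtain ⟨b, t, h⟩ := hne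
    exact ⟨b, t, by rw [hsG]; exact mul_ne_zero h (hG t)⟩

/-- **Main part**, from the growth conditions on `X` and on the fibre. -/
theorem main_num (hT : TensorPart) (hP : PullPart) (hcore : CorePart)
    (hform : FormPart) {n p d : ℕ} {X Z Y F : Type}
    [TopologicalSpace X] [T2Space X] [CompactSpace X] [ConnectedSpace X]
    [ChartedSpace (Cm n) X] [IsManifold 𝓘(ℂ, Cm n) ω X]
    [TopologicalSpace Z] [ChartedSpace (Cm n) Z] [IsManifold 𝓘(ℂ, Cm n) ω Z]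
    [TopologicalSpace Y] [T2Space Y] [ConnectedSpace Y]
    [ChartedSpace (Cm p) Y] [IsManifold 𝓘(ℂ, Cm p) ω Y]
    [TopologicalSpace F] [T2Space F] [CompactSpace F] [ConnectedSpace F]
    [ChartedSpace (Cm d) F] [IsManifold 𝓘(ℂ, Cm d) ω F]
    {χ : D.FormM n X} (hχ : IsKahler χ) {m N : ℕ} {S : Fin N → X → ℂ} (hS : IsMoving n m S)
    (hX : HasGrowth n m S)
    {j : Z → X} (hj : J.IsBigOpen (Cm n) j) {f : Z → Y}
    (hf : ContMDiff 𝓘(ℂ, Cm n) 𝓘(ℂ, Cm p) ω f)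
    {𝒢 : Set (Set Y)} (h𝒢 : J.IsDivisorial (Cm n) (Cm p) f 𝒢)
    (hbase : ∀ G, J.orbBase' (Cm n) (Cm p) f 0 G ≠ 0 → G ∈ 𝒢)
    {i : F → Z} (hi : H713.IsSmoothFibre (Cm n) (Cm p) (Cm d) f i)
    {G₀ : F → ℂ} (hG₀ : ∀ t, G₀ t ≠ 0)
    (hSF : IsMoving d m fun b t => S b (j (i t)) * G₀ t)
    (hF : HasGrowth d m fun b t => S b (j (i t)) * G₀ t) :
    J.kod (Cm d) (fun (C : Set F) x g => J.IsLocalEq (Cm d) C g x) 0 +
      J.kod (Cm p) (fun (G : Set Y) y g => J.IsLocalEq (Cm p) G g y)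
        (J.orbBase' (Cm n) (Cm p) f 0) ≤
      J.kod (Cm n) (fun (D : Set X) x g => J.IsLocalEq (Cm n) D g x) 0 := by
  obtain ⟨θ, R, hD⟩ := exists_dat' hcore hform hχ hS hX
  have hji : ContMDiff 𝓘(ℂ, Cm d) 𝓘(ℂ, Cm n) ω (fun t => j (i t)) := hj.1.comp hi.hol
  have hjii : ∀ t, Function.Injective (mfderiv 𝓘(ℂ, Cm d) 𝓘(ℂ, Cm n) (fun t => j (i t)) t) := by
    intro t
    have h3 := mfderiv_comp (I := 𝓘(ℂ, Cm d)) (I' := 𝓘(ℂ, Cm n)) (I'' := 𝓘(ℂ, Cm n))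
      (g := j) (f := i) t ((hj.1 (i t)).mdifferentiableAt (by simp))
      ((hi.hol t).mdifferentiableAt (by simp))
    have h4 : mfderiv 𝓘(ℂ, Cm d) 𝓘(ℂ, Cm n) (fun t => j (i t)) t = _ := h3
    rw [h4]
    exact (hj.2.2.1 (i t)).comp (hi.immersive t)
  obtain ⟨χF, hχF⟩ := hP n d X F (fun t => j (i t)) hji hjii χ hχ
  obtain ⟨θF, RF, hDF⟩ := exists_dat' hcore hform hχF hSF hF
  exact main_abs hT hD hj hf h𝒢 hbase hi hG₀ hDF

/-- contraction of the fixed divisor: invariance -/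
theorem isContracted_mul {d N k : ℕ} {F : Type} [TopologicalSpace F] [ChartedSpace (Cm d) F]
    {S sF : Fin N → F → ℂ} {t : Fin k → F → ℂ} (h : IsContracted d S t) {G : F → ℂ}
    (hG : ∀ x, G x ≠ 0) (hsG : ∀ b x, sF b x = S b x * G x) : IsContracted d sF t := by
  obtain ⟨l, a, h1⟩ := h
  refine ⟨l, a, fun x hx => ?_⟩
  obtain ⟨jj, h2, b₀, H, h3, h4⟩ := h1 x fun b => by
    have h5 := hx b
    rw [hsG] at h5
    exact (mul_eq_zero.1 h5).resolve_right (hG x)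
  refine ⟨jj, h2, b₀, H, fun b => ⟨(h3 b).1, ?_⟩, h4⟩
  filter_upwards [(h3 b).2] with z hz
  rw [hsG, hsG, hz, mul_assoc]

end Vale.Agent.P281.H167.GM
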