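import Vale.Agent.P281.H167.GM.M3

/-! P281, theorem GM, main part: projective contractions. -/

open scoped Manifold ContDiff Topology ComplexOrder
open Set Filter Metric Vale.Agent.P281.J Vale.Agent.P272.K

noncomputable section

namespace Vale.Agent.P281.H167.GM

open Vale.Agent.P281 Vale.Agent.P281.MF Vale.Agent.P281.ISO
open Vale.Agent.P299
open Vale.Agent.P281.H713.SA
open Vale.Agent.P272.K.INT (IsClosedForm)

set_option linter.unusedSectionVars false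

/-- the map with homogeneous coordinates `t b` is immersive at some point -/
def IsImm (n : ℕ) {X : Type} [TopologicalSpace X] [ChartedSpace (Cm n) X] {k : ℕ}
    (t : Fin k → X → ℂ) : Prop :=
  ∃ x b₀, t b₀ x ≠ 0 ∧ ∀ v : Cm n, (∀ b, J.dif (Cm n) (fun z => t b z / t b₀ z) x v = 0) → v = 0

/-- density of the immersive points -/
def DensePart : Prop := ∀ (n k : ℕ) (X : Type) [TopologicalSpace X] [ChartedSpace (Cm n) X]
  [IsManifold 𝓘(ℂ, Cm n) ω X] [ConnectedSpace X] (t : Fin k → X → ℂ) (_ : IsProjMap n t)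
  (_ : IsImm n t) (β : D.FormM n X)
  (_ : ∀ e x, At e x → ∀ b₀, t b₀ x ≠ 0 → ((β e (e x)).PosDef ↔ ∀ v : Cm n,
    (∀ b, fderiv ℂ (fun z => t b (e.symm z) / t b₀ (e.symm z)) (e x) v = 0) → v = 0)),
  Dense {x : X | ∃ e, At e x ∧ (β e (e x)).PosDef}

theorem hasGrowth_proj (hgr : GrowthPart) (hfs : FSPart) (hde : DensePart) {n : ℕ} {X : Type}
    [TopologicalSpace X] [T2Space X] [CompactSpace X] [ConnectedSpace X] [ChartedSpace (Cm n) X]
    [IsManifold 𝓘(ℂ, Cm n) ω X] {m N k : ℕ} {S : Fin N → X → ℂ} (hS : IsMoving n m S)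
    {t : Fin k → X → ℂ} (ht : IsProjMap n t) (hti : IsImm n t) (hc : IsContracted n S t) :
    HasGrowth n m S := by
  obtain ⟨β, hβ, hβ0, hβt, hβp⟩ := hfs n X k t ht
  refine ⟨β, hβ, hβ0, hde n k X t ht hti β hβp, ?_⟩
  intro φ hφ ρ hρ hρ0 hρS θ hθ hθ0 hθρ hρe hθS _ ν hν _
  exact hgr n X m N k S hS t ht hc φ hφ ρ hρ hρ0 hρS θ β hθ hβ hθ0 hβ0 hθρ hρe hθS hβt ν hν

/-- **Theorem GM** (projective contractions), from the blocks. -/
theorem main_proj (hR : RestrPart) (hT : TensorPart) (hP : PullPart) (hcore : CorePart)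
    (hform : FormPart) (hgr : GrowthPart) (hfs : FSPart) (hde : DensePart)
    {n p d : ℕ} (hnpd : n = p + d) {X Z Y F : Type}
    [TopologicalSpace X] [T2Space X] [CompactSpace X] [ConnectedSpace X]
    [ChartedSpace (Cm n) X] [IsManifold 𝓘(ℂ, Cm n) ω X]
    [TopologicalSpace Z] [ChartedSpace (Cm n) Z] [IsManifold 𝓘(ℂ, Cm n) ω Z]
    [TopologicalSpace Y] [T2Space Y] [ConnectedSpace Y]
    [ChartedSpace (Cm p) Y] [IsManifold 𝓘(ℂ, Cm p) ω Y]
    [TopologicalSpace F] [T2Space F] [CompactSpace F] [ConnectedSpace F]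
    [ChartedSpace (Cm d) F] [IsManifold 𝓘(ℂ, Cm d) ω F]
    {χ : D.FormM n X} (hχ : IsKahler χ) {m N : ℕ} {S : Fin N → X → ℂ} (hS : IsMoving n m S)
    {k : ℕ} {t : Fin k → X → ℂ} (ht : IsProjMap n t) (hti : IsImm n t) (hc : IsContracted n S t)
    {j : Z → X} (hj : J.IsBigOpen (Cm n) j) {f : Z → Y}
    (hf : ContMDiff 𝓘(ℂ, Cm n) 𝓘(ℂ, Cm p) ω f)
    {𝒢 : Set (Set Y)} (h𝒢 : J.IsDivisorial (Cm n) (Cm p) f 𝒢)
    (hbase : ∀ G, J.orbBase' (Cm n) (Cm p) f 0 G ≠ 0 → G ∈ 𝒢)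
    {i : F → Z} (hi : H713.IsSmoothFibre (Cm n) (Cm p) (Cm d) f i)
    (hne : ∃ b x, S b (j (i x)) ≠ 0)
    {kF : ℕ} {tF : Fin kF → F → ℂ} (htF : IsProjMap d tF) (htiF : IsImm d tF)
    (hcF : IsContracted d (fun b x => S b (j (i x))) tF) :
    J.kod (Cm d) (fun (C : Set F) x g => J.IsLocalEq (Cm d) C g x) 0 +
      J.kod (Cm p) (fun (G : Set Y) y g => J.IsLocalEq (Cm p) G g y)
        (J.orbBase' (Cm n) (Cm p) f 0) ≤
      J.kod (Cm n) (fun (D : Set X) x g => J.IsLocalEq (Cm n) D g x) 0 := by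
  obtain ⟨G₁, hG₁, hG₁s⟩ := pluri_open hR hj
  obtain ⟨G₂, hG₂, hG₂s⟩ := hR n p d hnpd Z Y F f hf i hi
  have hji : ContMDiff 𝓘(ℂ, Cm d) 𝓘(ℂ, Cm n) ω (fun t => j (i t)) := hj.1.comp hi.hol
  have hG₀ : ∀ t, G₁ (i t) ^ m * G₂ t ^ m ≠ 0 := fun t =>
    mul_ne_zero (pow_ne_zero _ (hG₁ _)) (pow_ne_zero _ (hG₂ _))
  have hsF : ∀ b, IsPluri (n := d) m fun t => S b (j (i t)) * (G₁ (i t) ^ m * G₂ t ^ m) := by
    intro b
    have h1 := hG₂s m _ (hG₁s m _ (hS.sec b))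
    have h2 : (fun t => S b (j (i t)) * (G₁ (i t) ^ m * G₂ t ^ m)) =
        fun t => S b (j (i t)) * G₁ (i t) ^ m * G₂ t ^ m := funext fun t => (mul_assoc _ _ _).symm
    rw [h2]
    exact h1
  have hmov := isMoving_mul hS hji hsF hG₀ (fun b t => rfl) hne
  exact main_num hT hP hcore hform hχ hS (hasGrowth_proj hgr hfs hde hS ht hti hc)
    hj hf h𝒢 hbase hi hG₀ hmov
    (hasGrowth_proj hgr hfs hde hmov htF htiF (isContracted_mul hcF hG₀ fun b x => rfl))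

end Vale.Agent.P281.H167.GM
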