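import Vale.Agent.P281.H167.GM.M3
import Vale.Agent.P281.H167.GM.Defs
import Vale.Agent.P281.H368.GM.KDefs
import Vale.Agent.P281.H787.RB

/-! P281, theorem GM, Kähler version: assembly. -/

open scoped Manifold ContDiff Topology ComplexOrder
open Set Filter Metric Vale.Agent.P281.J Vale.Agent.P272.K

noncomputable section

namespace Vale.Agent.P281.H167.GM

open Vale.Agent.P281 Vale.Agent.P281.MF Vale.Agent.P281.ISO
open Vale.Agent.P299
open Vale.Agent.P281.H713.SA
open Vale.Agent.P272.K.INT (IsClosedForm)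
open Vale.Agent.P281.H368.GM (IsDegFix GrowthKPart)

set_option linter.unusedSectionVars false

theorem IsSemiKahler.isClosedForm {n : ℕ} {X : Type} [TopologicalSpace X] [ChartedSpace (Cm n) X]
    [IsManifold 𝓘(ℂ, Cm n) ω X] {β : D.FormM n X} (h : H167.IsSemiKahler β) : IsClosedForm β where
  smooth := h.smooth
  form := h.change
  closed e x he i k l := h.closed e x he k l i

/-- a Kähler metric is semi-Kähler -/
theorem IsKahler.isSemiKahler {n : ℕ} {X : Type} [TopologicalSpace X] [ChartedSpace (Cm n) X]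
    {χ : D.FormM n X} (h : IsKahler χ) : H167.IsSemiKahler χ where
  smooth := h.smooth
  posSemidef e x he := (h.posDef e x he).posSemidef
  change := h.change
  closed := h.closed
  dense := by
    have h1 : {x : X | ∃ e, At e x ∧ (χ e (e x)).PosDef} = univ := by
      refine eq_univ_of_forall fun x => ?_
      have he : At (chartAt (Cm n) x) x := ⟨chart_mem_atlas (Cm n) x, mem_chart_source (Cm n) x⟩
      exact ⟨_, he, h.posDef _ x he⟩
    rw [h1]
    exact dense_univ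

theorem degAt_mono {n ν ν' : ℕ} {X : Type} [TopologicalSpace X] [ChartedSpace (Cm n) X] {N : ℕ}
    {H : Fin N → X → ℂ} {g : X → ℂ} {β : D.FormM n X} {z : X} (hν : ν ≤ ν')
    (h : H368.GM.DegAt n ν H g β z) : H368.GM.DegAt n ν' H g β z := by
  rcases h with h | ⟨K, h1, h2⟩
  · exact Or.inl h
  · exact Or.inr ⟨K, h1.trans (Nat.add_le_add_right hν _), h2⟩

theorem degFix_mono {n m ν ν' : ℕ} {X : Type} [TopologicalSpace X] [ChartedSpace (Cm n) X] {N : ℕ}
    {S : Fin N → X → ℂ} {β : D.FormM n X} (hν : ν ≤ ν')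
    (h : IsDegFix n m ν S β) : IsDegFix n m ν' S β := by
  intro x hx
  obtain ⟨r, g, a, H, h1, h2, h3, h4⟩ := h x hx
  refine ⟨r, g, a, H, h1, h2, h3, ?_⟩
  filter_upwards [h4] with z hz
  exact ⟨hz.1, fun i hi => degAt_mono hν (hz.2 i hi)⟩

section

variable {n m N : ℕ} {X : Type} [TopologicalSpace X] [ChartedSpace (Cm n) X]
  [IsManifold 𝓘(ℂ, Cm n) ω X] {S : Fin N → X → ℂ}

/-- `IsDegFix` contains `IsMoving` -/
theorem isMoving_of_degFix {ν : ℕ} (hm : 0 < m) (hS : ∀ b, IsPluri (n := n) m (S b))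
    (hne : ∃ b x, S b x ≠ 0) {β : D.FormM n X} (h : IsDegFix n m ν S β) : IsMoving n m S where
  pos := hm
  sec := hS
  ne := hne
  princ x := by
    by_cases hx : ∀ b, S b x = 0
    · obtain ⟨r, g, a, H, -, h2, ⟨b₀, h3⟩, h4⟩ := h x hx
      refine ⟨b₀, fun b => ⟨fun z => H b z / H b₀ z, ?_, ?_⟩⟩
      · exact HolV.div (h2 b) (h2 b₀) h3
      · filter_upwards [h4, (h2 b₀).continuousAt.eventually_ne h3] with z hz hz'
        rw [hz.1 b, hz.1 b₀]
        field_simp
    · push_neg at hx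
      obtain ⟨b₀, hb₀⟩ := hx
      refine ⟨b₀, fun b => ⟨fun z => S b z / S b₀ z, ?_, ?_⟩⟩
      · exact (secAt_pluri (hS b) x).div_holV (secAt_pluri (hS b₀) x) hb₀
      · filter_upwards [(secAt_pluri (hS b₀) x).ev_ne hb₀] with z hz
        rw [div_mul_cancel₀ _ hz]

/-- rank of the form of the sections -/
theorem le_rank {ν : ℕ} (hS : ∀ b, IsPluri (n := n) m (S b)) {θ : D.FormM n X}
    (hker : ∀ e x, At e x → ∀ b₀, S b₀ x ≠ 0 → ∀ v : Cm n,
      (∀ j, ∑ i, v i * θ e (e x) i j = 0) ↔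
        ∀ b, fderiv ℂ (fun z => S b (e.symm z) / S b₀ (e.symm z)) (e x) v = 0)
    (hr : HasRank n ν S) : ∃ e x, At e x ∧ ν ≤ (θ e (e x)).rank := by
  obtain ⟨x, b₀, c, h0, hc⟩ := hr
  have he : At (chartAt (Cm n) x) x := ⟨chart_mem_atlas (Cm n) x, mem_chart_source (Cm n) x⟩
  refine ⟨_, x, he, ?_⟩
  rw [rank_eq' hS hker he h0]
  have h1 : LinearIndependent ℂ fun b => al (n := n) S b₀ x (c b) :=
    JB.linearIndependent_of_surjective hc
  have h3 := li_card_le (α := al (n := n) S b₀ x)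
    (β := fun b : Fin ν => al (n := n) S b₀ x (c b)) (fun v hv b => hv (c b)) h1
  simpa using h3

theorem hasRank_ne {ν : ℕ} (hr : HasRank n ν S) : ∃ b x, S b x ≠ 0 := by
  obtain ⟨x, b₀, c, h0, -⟩ := hr
  exact ⟨b₀, x, h0⟩

theorem hasGrowth_K (hgr : GrowthKPart) [T2Space X] [CompactSpace X] [ConnectedSpace X]
    {χ : D.FormM n X} (hχ : IsKahler χ) {ν : ℕ} (hS : IsMoving n m S)
    (hr : HasRank n ν S) {β : D.FormM n X} (hβ : H167.IsSemiKahler β)
    (hN : IsDegFix n m ν S β) : HasGrowth n m S := by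
  refine ⟨β, IsSemiKahler.isClosedForm hβ, hβ.posSemidef, hβ.dense, ?_⟩
  intro φ hφ ρ hρ hρ0 hρS θ hθ hθ0 hθρ hρe hθS hker ν' hν' _
  obtain ⟨e, x, he, hle⟩ := le_rank hS.sec hker hr
  obtain ⟨C₁, hC₁⟩ := hgr n X χ hχ m N S hS φ hφ ρ hρ hρ0 hρS θ β hθ
    (IsSemiKahler.isClosedForm hβ) hθ0 hβ.posSemidef hθρ hρe ν' hν'
    (degFix_mono (hle.trans (hν' e x he)) hN)
  refine ⟨C₁, ?_⟩
  exact (eventually_ge_atTop 1).frequently.mono fun s hs => hC₁ s hs

end

end Vale.Agent.P281.H167.GM
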