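import Vale.Agent.P281.H167.GM.M6

/-! P281, theorem GM, Kähler version: restriction to the fibre, main theorem. -/

open scoped Manifold ContDiff Topology ComplexOrder
open Set Filter Metric Vale.Agent.P281.J Vale.Agent.P272.K

noncomputable section

namespace Vale.Agent.P281.H167.GM

open Vale.Agent.P281 Vale.Agent.P281.MF Vale.Agent.P281.ISO
open Vale.Agent.P299
open Vale.Agent.P281.H713.SA
open Vale.Agent.P272.K.INT (IsClosedForm)
open Vale.Agent.P281.H368.GM (IsDegFix GrowthKPart)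

set_option linter.unusedSectionVars false

/-- Jacobian of the chart at `x` -/
abbrev cj (n : ℕ) {X : Type} [TopologicalSpace X] [ChartedSpace (Cm n) X] (x z : X) : ℂ :=
  ContinuousLinearMap.det (mfderiv 𝓘(ℂ, Cm n) 𝓘(ℂ, Cm n) (chartAt (Cm n) x) z :
    Cm n →L[ℂ] Cm n)

/-- `G` compares the Jacobians of `X` and `F` along `ι : F → X` -/
def IsAdj {n d : ℕ} {X F : Type} [TopologicalSpace X] [ChartedSpace (Cm n) X]
    [TopologicalSpace F] [ChartedSpace (Cm d) F] (ι : F → X) (G : F → ℂ) : Prop :=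
  ∀ t₀, ∃ η : F → ℂ, HolAt (Cm d) η t₀ ∧ η t₀ ≠ 0 ∧
    ∀ᶠ t in 𝓝 t₀, cj n (ι t₀) (ι t) * G t = η t * cj d t₀ t

section

variable {n d p : ℕ} {X Z F : Type} [TopologicalSpace X] [ChartedSpace (Cm n) X]
  [IsManifold 𝓘(ℂ, Cm n) ω X] [TopologicalSpace Z] [ChartedSpace (Cm n) Z]
  [IsManifold 𝓘(ℂ, Cm n) ω Z] [TopologicalSpace F] [ChartedSpace (Cm d) F]
  [IsManifold 𝓘(ℂ, Cm d) ω F]

theorem dif_mul' {a b : X → ℂ} {x : X} (ha : HolV (Cm n) a x) (hb : HolV (Cm n) b x) (ξ : Cm n) :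
    J.dif (Cm n) (fun z => a z * b z) x ξ =
      b x * J.dif (Cm n) a x ξ + a x * J.dif (Cm n) b x ξ := by
  have := dV_smul (E := Cm n) (lam := b) (v := a) hb ha
  have h2 : (fun z => a z * b z) = fun z => b z • a z := by funext z; simp [mul_comm]
  rw [h2]
  show dV (Cm n) (fun z => b z • a z) x ξ = b x * dV (Cm n) a x ξ + a x * dV (Cm n) b x ξ
  rw [this]
  simp [mul_comm]

theorem pker_mul {N : ℕ} {H : Fin N → X → ℂ} {u : X → ℂ} {z : X} (hH : ∀ b, HolV (Cm n) (H b) z)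
    (hu : HolV (Cm n) u z) {w : Cm n} (h : H368.GM.PKer n H z w) :
    H368.GM.PKer n (fun b z => H b z * u z) z w := by
  intro b b'
  have h1 := h b b'
  show H b z * u z * J.dif (Cm n) (fun z => H b' z * u z) z w =
    H b' z * u z * J.dif (Cm n) (fun z => H b z * u z) z w
  rw [dif_mul' (hH b') hu, dif_mul' (hH b) hu]
  linear_combination (u z) ^ 2 * h1

theorem degAt_mul {N ν : ℕ} {H : Fin N → X → ℂ} {u : X → ℂ} {z : X}
    (hH : ∀ b, HolV (Cm n) (H b) z) (hu : HolV (Cm n) u z) {g : X → ℂ} {β : D.FormM n X}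
    (h : H167.DegAt n ν H g β z) : H368.GM.DegAt n ν (fun b z => H b z * u z) g β z := by
  rcases h with ⟨w, h1, h2, h3, h4⟩ | ⟨K, h1, h2⟩
  · exact Or.inl ⟨w, h1, h2, pker_mul hH hu h3, h4⟩
  · exact Or.inr ⟨K, h1, fun w hw => ⟨(h2 w hw).1, pker_mul hH hu (h2 w hw).2⟩⟩

theorem cj_ne {x z : X} (hz : z ∈ (chartAt (Cm n) x).source) : cj n x z ≠ 0 :=
  jac_chart_ne_zero hz

theorem isAdj_ne {ι : F → X} {G : F → ℂ} (hG : IsAdj (n := n) (d := d) ι G) (t : F) :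
    G t ≠ 0 := by
  obtain ⟨η, -, hη0, hev⟩ := hG t
  have h1 := hev.self_of_nhds
  intro h0
  rw [h0, mul_zero] at h1
  exact mul_ne_zero hη0 (cj_ne (mem_chart_source (Cm d) t)) h1.symm

/-- restriction of pluricanonical sections -/
theorem pluri_restr {m : ℕ} {s : X → ℂ} (hs : IsPluri (n := n) m s) {ι : F → X}
    (hι : ∀ t, HolM (Cm d) (Cm n) ι t) {G : F → ℂ} (hG : IsAdj (n := n) (d := d) ι G) :
    IsPluri (n := d) m fun t => s (ι t) * G t ^ m := by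
  intro t₀
  obtain ⟨T, g, a, -, -, ha, hev⟩ := hs (ι t₀)
  obtain ⟨η, hη, hη0, hηe⟩ := hG t₀
  refine ⟨∅, fun _ _ => 0, fun t => a (ι t) * η t ^ m, fun i hi => absurd rfl hi,
    fun i hi => absurd hi (Finset.notMem_empty i), HolV.mul (HolV.comp (h := a) ha (hι t₀))
      (HolV.pow hη _), ?_⟩
  filter_upwards [hηe, (hι t₀).continuousAt.eventually hev] with t h1 h2 _
  rw [Finset.prod_empty, mul_one]
  have h3 : s (ι t) = a (ι t) * cj n (ι t₀) (ι t) ^ m := by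
    have h4 := h2 (by simp)
    simpa using h4
  rw [h3, mul_assoc, ← mul_pow, h1, mul_pow]
  ring

/-- restriction of the hypothesis on the fixed divisor -/
theorem degFix_restr {m ν N : ℕ} {S : Fin N → X → ℂ} {ι : F → X}
    {G : F → ℂ} (hG : IsAdj (n := n) (d := d) ι G) {β : D.FormM d F}
    (h : H167.IsGoodFix n d m ν ι S β) :
    IsDegFix d m ν (fun b t => S b (ι t) * G t ^ m) β := by
  intro x hx
  obtain ⟨r, g, a, H, h1, h2, ⟨b₀, h3⟩, h4⟩ := h x fun b =>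
    (mul_eq_zero.1 (hx b)).resolve_right (pow_ne_zero _ (isAdj_ne hG x))
  obtain ⟨η, hη, hη0, hηe⟩ := hG x
  refine ⟨r, g, a, fun b t => H b t * η t ^ m, h1, fun b => HolV.mul (h2 b) (HolV.pow hη m),
    ⟨b₀, mul_ne_zero h3 (pow_ne_zero _ hη0)⟩, ?_⟩
  have h5 : ∀ᶠ z in 𝓝 x, ∀ b, HolV (Cm d) (H b) z := by
    rw [eventually_all]
    exact fun b => HolV.eventually (h2 b)
  filter_upwards [h4, hηe, h5, HolV.eventually (HolV.pow hη m)] with z hz h6 h7 h8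
  refine ⟨fun b => ?_, fun i hi => degAt_mul h7 h8 (hz.2 i hi)⟩
  show S b (ι z) * G z ^ m = _
  rw [hz.1 b]
  have h9 : (∏ i, g i z ^ a i) * H b z * cj n (ι x) (ι z) ^ m * G z ^ m =
      (∏ i, g i z ^ a i) * H b z * (cj n (ι x) (ι z) * G z) ^ m := by ring
  refine h9.trans ?_
  rw [h6]
  show _ = (∏ i, g i z ^ a i) * (H b z * η z ^ m) * cj d x z ^ m
  ring

theorem isAdj_id : IsAdj (n := n) (d := n) (id : X → X) fun _ => 1 := fun _ =>
  ⟨fun _ => 1, contMDiffAt_const, one_ne_zero, Eventually.of_forall fun _ => by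
    show _ * (1 : ℂ) = 1 * _
    rw [mul_one, one_mul]
    rfl⟩

theorem degFix_id {m ν N : ℕ} {S : Fin N → X → ℂ} {β : D.FormM n X}
    (h : H167.IsGoodFix n n m ν (id : X → X) S β) : IsDegFix n m ν S β := by
  have h1 := degFix_restr (isAdj_id (X := X)) h
  simp only [one_pow, mul_one, id] at h1
  exact h1

/-- composition -/
theorem isAdj_comp {j : Z → X} {i : F → Z} (hi : ∀ t, HolM (Cm d) (Cm n) i t) {G₁ : Z → ℂ}
    {G₂ : F → ℂ} (h₁ : IsAdj (n := n) (d := n) j G₁) (h₂ : IsAdj (n := n) (d := d) i G₂) :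
    IsAdj (n := n) (d := d) (fun t => j (i t)) fun t => G₁ (i t) * G₂ t := by
  intro t₀
  obtain ⟨η₁, ha, ha0, hae⟩ := h₁ (i t₀)
  obtain ⟨η₂, hb, hb0, hbe⟩ := h₂ t₀
  refine ⟨fun t => η₁ (i t) * η₂ t, HolV.mul (HolV.comp (h := η₁) ha (hi t₀)) hb,
    mul_ne_zero ha0 hb0, ?_⟩
  filter_upwards [hbe, (hi t₀).continuousAt.eventually hae] with t h3 h4
  show cj n (j (i t₀)) (j (i t)) * (G₁ (i t) * G₂ t) = η₁ (i t) * η₂ t * cj d t₀ t
  rw [← mul_assoc, h4, mul_assoc, h3]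
  ring

end

/-- **Theorem GM** (Kähler version), from the blocks. -/
theorem main_K (hR : H713.SB.RestrPartB) (hT : TensorPart) (hP : PullPart) (hcore : CorePart)
    (hform : FormPart) (hgr : GrowthKPart)
    {n p d : ℕ} (hnpd : n = p + d) {X Z Y F : Type}
    [TopologicalSpace X] [T2Space X] [CompactSpace X] [ConnectedSpace X]
    [ChartedSpace (Cm n) X] [IsManifold 𝓘(ℂ, Cm n) ω X]
    [TopologicalSpace Z] [ChartedSpace (Cm n) Z] [IsManifold 𝓘(ℂ, Cm n) ω Z]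
    [TopologicalSpace Y] [T2Space Y] [ConnectedSpace Y]
    [ChartedSpace (Cm p) Y] [IsManifold 𝓘(ℂ, Cm p) ω Y]
    [TopologicalSpace F] [T2Space F] [CompactSpace F] [ConnectedSpace F]
    [ChartedSpace (Cm d) F] [IsManifold 𝓘(ℂ, Cm d) ω F]
    {χ : D.FormM n X} (hχ : IsKahler χ)
    {j : Z → X} (hj : J.IsBigOpen (Cm n) j) {f : Z → Y}
    (hf : ContMDiff 𝓘(ℂ, Cm n) 𝓘(ℂ, Cm p) ω f)
    {𝒢 : Set (Set Y)} (h𝒢 : J.IsDivisorial (Cm n) (Cm p) f 𝒢)
    (hbase : ∀ G, J.orbBase' (Cm n) (Cm p) f 0 G ≠ 0 → G ∈ 𝒢)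
    {i : F → Z} (hi : H713.IsSmoothFibre (Cm n) (Cm p) (Cm d) f i)
    {m N : ℕ} (hm : 0 < m) {S : Fin N → X → ℂ} (hS : ∀ b, IsPluri (n := n) m (S b))
    {ν : ℕ} (hν : HasRank n ν S) {β : D.FormM n X} (hβ : H167.IsSemiKahler β)
    (hN : H167.IsGoodFix n n m ν (id : X → X) S β)
    {νF : ℕ} (hνF : HasRank d νF fun b t => S b (j (i t))) {βF : D.FormM d F}
    (hβF : H167.IsSemiKahler βF)
    (hNF : H167.IsGoodFix n d m νF (fun t => j (i t)) S βF) :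
    J.kod (Cm d) (fun (C : Set F) x g => J.IsLocalEq (Cm d) C g x) 0 +
      J.kod (Cm p) (fun (G : Set Y) y g => J.IsLocalEq (Cm p) G g y)
        (J.orbBase' (Cm n) (Cm p) f 0) ≤
      J.kod (Cm n) (fun (D : Set X) x g => J.IsLocalEq (Cm n) D g x) 0 := by
  obtain ⟨G₁, -, hG₁⟩ := hR n 0 n (Nat.zero_add n).symm X (Cm 0) Z (fun _ => 0) contMDiff_const j
    ⟨hj.1, hj.2.2.1, fun _ _ => rfl, fun _ y => ⟨0, Subsingleton.elim (α := Cm 0) _ _⟩⟩
  obtain ⟨G₂, -, hG₂⟩ := hR n p d hnpd Z Y F f hf i hi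
  have hadj : IsAdj (n := n) (d := d) (fun t => j (i t)) fun t => G₁ (i t) * G₂ t :=
    isAdj_comp (j := j) (i := i) (fun t => hi.hol t) hG₁ hG₂
  have hji : ContMDiff 𝓘(ℂ, Cm d) 𝓘(ℂ, Cm n) ω (fun t => j (i t)) := hj.1.comp hi.hol
  have hjih : ∀ t, HolM (Cm d) (Cm n) (fun t => j (i t)) t := fun t => hji t
  have hjii : ∀ t, Function.Injective (mfderiv 𝓘(ℂ, Cm d) 𝓘(ℂ, Cm n) (fun t => j (i t)) t) := by
    intro t
    have h3 := mfderiv_comp (I := 𝓘(ℂ, Cm d)) (I' := 𝓘(ℂ, Cm n)) (I'' := 𝓘(ℂ, Cm n))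
      (g := j) (f := i) t ((hj.1 (i t)).mdifferentiableAt (by simp))
      ((hi.hol t).mdifferentiableAt (by simp))
    have h4 : mfderiv 𝓘(ℂ, Cm d) 𝓘(ℂ, Cm n) (fun t => j (i t)) t = _ := h3
    rw [h4]
    exact (hj.2.2.1 (i t)).comp (hi.immersive t)
  obtain ⟨χF, hχF⟩ := hP n d X F (fun t => j (i t)) hji hjii χ hχ
  -- `X`
  have hN' := degFix_id hN
  have hmov := isMoving_of_degFix hm hS (hasRank_ne hν) hN'
  have hX := hasGrowth_K hgr hχ hmov hν hβ hN'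
  -- `F`
  have hG₀ : ∀ t, (G₁ (i t) * G₂ t) ^ m ≠ 0 := fun t => pow_ne_zero _ (isAdj_ne hadj t)
  have hSF : ∀ b, IsPluri (n := d) m fun t => S b (j (i t)) * (G₁ (i t) * G₂ t) ^ m := fun b =>
    pluri_restr (hS b) hjih hadj
  have hNF' := degFix_restr hadj hNF
  have hνF' : HasRank d νF fun b t => S b (j (i t)) * (G₁ (i t) * G₂ t) ^ m := by
    obtain ⟨x, b₀, c, h0, hc⟩ := hνF
    refine ⟨x, b₀, c, mul_ne_zero h0 (hG₀ x), ?_⟩
    have h1 : ∀ b, (fun z => S (c b) (j (i z)) * (G₁ (i z) * G₂ z) ^ m /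
        (S b₀ (j (i z)) * (G₁ (i z) * G₂ z) ^ m)) = fun z => S (c b) (j (i z)) / S b₀ (j (i z)) :=
      fun b => funext fun z => mul_div_mul_right _ _ (hG₀ z)
    simp only [h1]
    exact hc
  have hmovF : IsMoving d m fun b t => S b (j (i t)) * (G₁ (i t) * G₂ t) ^ m :=
    isMoving_of_degFix hm hSF (hasRank_ne hνF') hNF'
  have hFg := hasGrowth_K hgr hχF hmovF hνF' hβF hNF'
  exact main_num hT hP hcore hform hχ hmov hX hj hf h𝒢 hbase hi hG₀ hmovF hFg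

end Vale.Agent.P281.H167.GM
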